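import Vale.Agent.P352Z.R.NULL

/-!
# P352Z, step A: the algebra on the cone (helper14)
-/

set_option linter.all false

namespace Vale.Agent.P352X.ZZ.SA

open Vale.Agent.P352 Vale.Agent.P352.GF MvPolynomial Nul

/-- homogeneous of degree `d` and longitudinal on the cone in both indices -/
structure Lg2 (d : ℕ) (π : Ix → Ix → MvPolynomial Ix ℂ) : Prop where
  hom : ∀ r s, (π r s).IsHomogeneous d
  dv1 : ∀ r s k, mup ∣ π r s * X k - π k s * X r
  dv2 : ∀ r s k, mup ∣ π r s * X k - π r k * X s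

theorem Lg2.sigma {d : ℕ} {π : Ix → Ix → MvPolynomial Ix ℂ} (h : Lg2 d π) :
    ∃ σ : MvPolynomial Ix ℂ, σ.IsHomogeneous (d - 2) ∧ ∀ r s, mup ∣ π r s - X r * (X s * σ) := by
  choose V v1 v2 using fun s => step (fun r => h.hom r s) fun r k => h.dv1 r s k
  obtain ⟨σ, h0, hσ⟩ := step v1 fun s k => dvd_of _ (by
    convert ((h.dv2 0 s k).sub ((v2 s 0).mul_right (X k))).add ((v2 k 0).mul_right (X s)) using 1
    ring)
  exact ⟨σ, h0, fun r s => by
    convert (v2 s r).add ((hσ s).mul_left (X r)) using 1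
    ring⟩

theorem low {P : MvPolynomial Ix ℂ} {e : ℕ} (he : e < 2) (hP : P.IsHomogeneous e) (h : mup ∣ P) :
    P = 0 := by
  obtain ⟨ν, rfl⟩ := h
  by_contra h0
  have h1 : ν ≠ 0 := fun h => h0 (by rw [h, mul_zero])
  have := totalDegree_mul_of_isDomain mup_ne h1
  rw [hP.totalDegree h0, hom_mup.totalDegree mup_ne] at this
  omega

theorem dvd_of2 {P : MvPolynomial Ix ℂ} (h : mup ∣ X 0 * (X 0 * P)) : mup ∣ P :=
  dvd_of _ (dvd_of _ (by convert h using 1; ring))

theorem const {P : MvPolynomial Ix ℂ} (h : P.IsHomogeneous 0) : ∃ a, P = C a :=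
  ⟨_, totalDegree_eq_zero_iff_eq_C.1 (by
    by_cases h0 : P = 0
    · simp [h0]
    · exact h.totalDegree h0)⟩

theorem Lg2.deg2 {B : Ix → Ix → MvPolynomial Ix ℂ} (h : Lg2 2 B) :
    ∃ (κ : ℂ) (Q : Ix → Ix → ℂ), ∀ r s, B r s = X r * (X s * C κ) + mup * C (Q r s) := by
  obtain ⟨σ, h0, hσ⟩ := h.sigma
  obtain ⟨κ, rfl⟩ := const h0
  choose g hg using hσ
  have hh : ∀ r s, (g r s).IsHomogeneous 0 := fun r s => hom_of_mul (hg r s ▸ (h.hom r s).sub (by
    simpa using (isHomogeneous_X ℂ r).mul ((isHomogeneous_X ℂ s).mul (isHomogeneous_C Ix κ))))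
  choose Q hQ using fun r s => const (hh r s)
  exact ⟨κ, Q, fun r s => by rw [← hQ, ← hg]; ring⟩

theorem tr2 {κ : ℂ} {Q : Ix → Ix → ℂ}
    (h : ∑ r, C (eta r : ℂ) * (X r * (X r * C κ) + mup * C (Q r r)) = (0 : MvPolynomial Ix ℂ)) :
    κ + ∑ r, eta r * Q r r = 0 := by
  have : mup * C (κ + ∑ r, eta r * Q r r) = 0 := by
    rw [← h, map_add, map_sum, mul_add, Finset.mul_sum]
    conv_lhs => congr; rw [mup, Finset.sum_mul]
    rw [← Finset.sum_add_distrib]
    exact Finset.sum_congr rfl fun r _ => by rw [map_mul]; ring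
  exact C_eq_zero.1 ((mul_eq_zero.1 this).resolve_left mup_ne)

theorem dv2e {κ : ℂ} {Q : Ix → Ix → ℂ} (s : Ix) :
    ∑ r, C (eta r : ℂ) * X r * (X r * (X s * C κ) + mup * C (Q r s)) =
      mup * (X s * C κ + ∑ r, C (eta r * Q r s) * X r : MvPolynomial Ix ℂ) := by
  rw [mul_add, Finset.mul_sum]
  conv_rhs => congr; rw [mup, Finset.sum_mul]
  rw [← Finset.sum_add_distrib]
  exact Finset.sum_congr rfl fun r _ => by rw [map_mul]; ring

/-- degree two: traceless, and the divergence is `μ` times a field without divergence -/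
theorem Lg2.kill {B : Ix → Ix → MvPolynomial Ix ℂ} (h : Lg2 2 B)
    (ht : ∑ r, C (eta r : ℂ) * B r r = 0) (w : Ix → MvPolynomial Ix ℂ)
    (hw : ∀ s, ∑ r, C (eta r : ℂ) * X r * B r s = mup * w s) (hd : ∑ s, pderiv s (w s) = 0) :
    ∃ Q : Ix → Ix → ℂ, ∀ r s, B r s = mup * C (Q r s) := by
  obtain ⟨κ, Q, hB⟩ := h.deg2
  simp only [hB] at ht hw
  have h1 := tr2 ht
  have h2 : ∀ s, w s = X s * C κ + ∑ r, C (eta r * Q r s) * X r := fun s =>
    mul_left_cancel₀ mup_ne (by rw [← hw, dv2e])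
  have h3 : ∀ s, pderiv s (w s) = C (κ + eta s * Q s s) := fun s => by
    rw [h2, map_add, map_sum, Finset.sum_eq_single s (fun b _ hb => by
      rw [pderiv_C_mul, pderiv_X_of_ne hb, mul_zero]) (by simp), pderiv_C_mul, pderiv_X_self,
      mul_comm (X s), pderiv_C_mul, pderiv_X_self, map_add, mul_one, mul_one]
  simp only [h3, ← map_sum, C_eq_zero, Finset.sum_add_distrib, Finset.sum_const, Finset.card_univ,
    Fintype.card_fin, nsmul_eq_mul] at hd
  have h4 : κ = 0 := by
    push_cast at hd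
    linear_combination (1 / 3 : ℂ) * hd - (1 / 3 : ℂ) * h1
  exact ⟨Q, fun r s => by rw [hB, h4]; simp⟩

/-- degree two: traceless, and the double divergence vanishes -/
theorem Lg2.kill2 {B : Ix → Ix → MvPolynomial Ix ℂ} (h : Lg2 2 B)
    (ht : ∑ r, C (eta r : ℂ) * B r r = 0)
    (hd : ∑ s, C (eta s : ℂ) * X s * ∑ r, C (eta r : ℂ) * X r * B r s = 0) :
    ∃ Q : Ix → Ix → ℂ, ∀ r s, B r s = mup * C (Q r s) := by
  obtain ⟨κ, Q, hB⟩ := h.deg2
  simp only [hB] at ht hd
  have h1 := tr2 ht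
  simp only [dv2e, mul_left_comm _ mup, ← Finset.mul_sum] at hd
  have h2 := (mul_eq_zero.1 hd).resolve_left mup_ne
  have h3 : ∀ i, κ + eta i * Q i i = 0 := fun i => by
    have := congrArg (eval (Pi.single i 1 : Ix → ℂ)) h2
    simp only [map_sum, map_mul, map_add, eval_C, eval_X, map_zero] at this
    rw [Finset.sum_eq_single i (fun b _ hb => by simp [hb]) (by simp),
      Finset.sum_eq_single i (fun b _ hb => by simp [hb]) (by simp)] at this
    simp only [Pi.single_eq_same, mul_one, one_mul] at this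
    exact (mul_eq_zero.1 this).resolve_left (eta_ne i)
  have h5 := Finset.sum_congr rfl fun i (_ : i ∈ Finset.univ) => h3 i
  simp only [Finset.sum_add_distrib, Finset.sum_const, Finset.card_univ,
    Fintype.card_fin, nsmul_eq_mul, mul_zero] at h5
  have h4 : κ = 0 := by
    push_cast at h5
    linear_combination (1 / 3 : ℂ) * h5 - (1 / 3 : ℂ) * h1
  exact ⟨Q, fun r s => by rw [hB, h4]; simp⟩

/-- degree two: conserved and traceless -/
theorem Lg2.zero {B : Ix → Ix → MvPolynomial Ix ℂ} (h : Lg2 2 B)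
    (ht : ∑ r, C (eta r : ℂ) * B r r = 0) (hw : ∀ s, ∑ r, C (eta r : ℂ) * X r * B r s = 0)
    (r s : Ix) : B r s = 0 := by
  obtain ⟨Q, hQ⟩ := h.kill ht 0 (fun s => by rw [hw, Pi.zero_apply, mul_zero]) (by simp)
  have h1 := hw s
  simp only [hQ, mul_left_comm _ mup, ← Finset.mul_sum] at h1
  have h2 := congrArg (eval (Pi.single r 1 : Ix → ℂ)) ((mul_eq_zero.1 h1).resolve_left mup_ne)
  simp only [map_sum, map_mul, eval_C, eval_X, map_zero] at h2
  rw [Finset.sum_eq_single r (fun b _ hb => by simp [hb]) (by simp)] at h2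
  simp only [Pi.single_eq_same, mul_one] at h2
  rw [hQ, (mul_eq_zero.1 h2).resolve_left (eta_ne r), map_zero, mul_zero]

theorem vec0 {U : Ix → MvPolynomial Ix ℂ} (hU : ∀ k, (U k).IsHomogeneous 0)
    (hS : ∀ s k, mup ∣ U s * X k - U k * X s) (s : Ix) : U s = 0 := by
  choose u hu using fun k => const (hU k)
  obtain ⟨k, hk⟩ := exists_ne s
  have h1 := low one_lt_two (by
    simpa using ((hU s).mul (isHomogeneous_X ℂ k)).sub ((hU k).mul (isHomogeneous_X ℂ s))) (hS s k)
  have h2 := congrArg (eval (Pi.single k 1 : Ix → ℂ)) h1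
  simp [hu, hk.symm] at h2
  rw [hu, h2, map_zero]

/-- degree below two -/
theorem Lg2.zero_lt {d : ℕ} (hd : d < 2) {B : Ix → Ix → MvPolynomial Ix ℂ} (h : Lg2 d B)
    (r s : Ix) : B r s = 0 := by
  choose V v1 v2 using fun s => step (fun r => h.hom r s) fun r k => h.dv1 r s k
  have h0 := vec0 (U := V) (fun k => by simpa [show d - 1 = 0 by omega] using v1 k)
    fun s k => dvd_of _ (by
      convert ((h.dv2 0 s k).sub ((v2 s 0).mul_right (X k))).add ((v2 k 0).mul_right (X s)) using 1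
      ring)
  exact low hd (h.hom r s) (by simpa [h0] using v2 s r)

theorem sum_dvd {ι : Type*} [Fintype ι] {f g : ι → MvPolynomial Ix ℂ} (h : ∀ i, mup ∣ f i - g i) :
    mup ∣ ∑ i, f i - ∑ i, g i := by
  rw [← Finset.sum_sub_distrib]
  exact Finset.dvd_sum fun i _ => h i

/-- the last step: `πY = B p p` on the cone, `μ ∣ B` -/
theorem fin_dvd {πY : Ix → Ix → Ix → Ix → MvPolynomial Ix ℂ} {B : Ix → Ix → MvPolynomial Ix ℂ}
    (hB : ∀ r s, (B r s).IsHomogeneous 2)
    (h : ∀ r s a b, mup ∣ πY r s a b - X a * (X b * B r s))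
    (r1 : ∀ r s k a b, mup ∣ πY r s a b * X k - πY k s a b * X r)
    (r2 : ∀ r s k a b, mup ∣ πY r s a b * X k - πY r k a b * X s) : Lg2 2 B :=
  ⟨hB, fun r s k => dvd_of2 (by
    convert ((r1 r s k 0 0).sub ((h r s 0 0).mul_right (X k))).add ((h k s 0 0).mul_right (X r))
      using 1
    ring), fun r s k => dvd_of2 (by
    convert ((r2 r s k 0 0).sub ((h r s 0 0).mul_right (X k))).add ((h r k 0 0).mul_right (X s))
      using 1
    ring)⟩

theorem sym3 (q : Ix → MvPolynomial Ix ℂ) (A : Ix → Ix → Ix → MvPolynomial Ix ℂ)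
    (k1 : ∀ r s t, A r s t + A s t r + A t r s + A s r t + A r t s + A t s r = 0) :
    ∑ r, ∑ s, ∑ t, q r * q s * q t * A r s t = 0 := by
  have s1 : ∀ F : Ix → Ix → Ix → MvPolynomial Ix ℂ, ∑ r, ∑ s, ∑ t, q r * q s * q t * F s r t =
      ∑ r, ∑ s, ∑ t, q r * q s * q t * F r s t := fun F => by
    rw [Finset.sum_comm]
    exact Finset.sum_congr rfl fun r _ => Finset.sum_congr rfl fun s _ =>
      Finset.sum_congr rfl fun t _ => by ring
  have s2 : ∀ F : Ix → Ix → Ix → MvPolynomial Ix ℂ, ∑ r, ∑ s, ∑ t, q r * q s * q t * F r t s =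
      ∑ r, ∑ s, ∑ t, q r * q s * q t * F r s t := fun F => by
    refine Finset.sum_congr rfl fun r _ => ?_
    rw [Finset.sum_comm]
    exact Finset.sum_congr rfl fun s _ => Finset.sum_congr rfl fun t _ => by ring
  have e1 := s1 A
  have e2 := s2 A
  have e3 := (s2 fun r s t => A s r t).trans e1
  have e4 := (s1 fun r s t => A r t s).trans e2
  have e5 := (s1 fun r s t => A t r s).trans e3
  have e6 : ∑ r, ∑ s, ∑ t, q r * q s * q t *
      (A r s t + A s t r + A t r s + A s r t + A r t s + A t s r) = 0 := by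
    simp only [k1, mul_zero, Finset.sum_const_zero]
  simp only [mul_add, Finset.sum_add_distrib] at e6
  have e7 : (6 : MvPolynomial Ix ℂ) * ∑ r, ∑ s, ∑ t, q r * q s * q t * A r s t = 0 := by
    linear_combination e6 - e1 - e2 - e3 - e4 - e5
  exact (mul_eq_zero.1 e7).resolve_left (by norm_num)

/-- **The contact datum of dimension three is a traceless hook.** -/
theorem kill802 (π3 : Ix → Ix → Ix → Ix → Ix → MvPolynomial Ix ℂ)
    (πY : Ix → Ix → Ix → Ix → MvPolynomial Ix ℂ) (α : ℂ)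
    (h3 : ∀ r s t, Lg2 3 (π3 r s t))
    (hook : ∀ r s t a b, π3 r s t a b + π3 s t r a b + π3 t r s a b + π3 s r t a b +
      π3 r t s a b + π3 t s r a b = 0)
    (trc : ∀ t a b, ∑ r, C (eta r : ℂ) * π3 r r t a b = 0)
    (rel : ∀ r s a b, mup ∣ πY r s a b - C α * ∑ t, C (eta t : ℂ) * X t * π3 r s t a b)
    (r1 : ∀ r s k a b, mup ∣ πY r s a b * X k - πY k s a b * X r)
    (r2 : ∀ r s k a b, mup ∣ πY r s a b * X k - πY r k a b * X s) (r s a b : Ix) :
    mup ∣ πY r s a b := by
  choose A hA hd using fun r s t => (h3 r s t).sigma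
  have k1 : ∀ r s t, A r s t + A s t r + A t r s + A s r t + A r t s + A t s r = 0 := fun r s t =>
    low one_lt_two ((((((hA _ _ _).add (hA _ _ _)).add (hA _ _ _)).add (hA _ _ _)).add
      (hA _ _ _)).add (hA _ _ _)) (dvd_of2 (by
      convert ((((((hd r s t 0 0).add (hd s t r 0 0)).add (hd t r s 0 0)).add (hd s r t 0 0)).add
        (hd r t s 0 0)).add (hd t s r 0 0)).neg_right using 1
      linear_combination hook r s t 0 0))
  have k2 : ∀ t, ∑ r, C (eta r : ℂ) * A r r t = 0 := fun t =>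
    low one_lt_two (IsHomogeneous.sum _ _ _ fun r _ => by
      simpa using (isHomogeneous_C Ix (eta r : ℂ)).mul (hA r r t)) (dvd_of2 (by
      have := (Finset.dvd_sum fun r (_ : r ∈ Finset.univ) =>
        (hd r r t 0 0).mul_left (C (eta r : ℂ))).neg_right
      simp only [mul_sub, Finset.sum_sub_distrib, trc] at this
      convert this using 1
      simp only [Finset.mul_sum, zero_sub, neg_neg]
      exact Finset.sum_congr rfl fun r _ => by ring))
  obtain ⟨B, eB⟩ : ∃ B : Ix → Ix → MvPolynomial Ix ℂ,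
      ∀ r s, B r s = C α * ∑ t, C (eta t : ℂ) * X t * A r s t := ⟨_, fun _ _ => rfl⟩
  have hB : ∀ r s a b, mup ∣ πY r s a b - X a * (X b * B r s) := fun r s a b => by
    have := (Finset.dvd_sum fun t (_ : t ∈ Finset.univ) =>
      (hd r s t a b).mul_left (C (eta t : ℂ) * X t)).mul_left (C α)
    have u1 : ∑ t, C (eta t : ℂ) * X t * (X a * (X b * A r s t)) =
        X a * (X b * ∑ t, C (eta t : ℂ) * X t * A r s t) := by
      simp only [Finset.mul_sum]
      exact Finset.sum_congr rfl fun r _ => by ring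
    convert (rel r s a b).add this using 1
    simp only [eB, mul_sub, Finset.sum_sub_distrib, u1]
    ring
  have hL := fin_dvd (fun r s => by
    rw [eB]
    simpa using (isHomogeneous_C Ix α).mul (IsHomogeneous.sum _ _ _ fun t _ => by
      simpa using ((isHomogeneous_C Ix (eta t : ℂ)).mul (isHomogeneous_X ℂ t)).mul (hA r s t)))
    hB r1 r2
  have q1 : ∑ r, C (eta r : ℂ) * B r r = 0 := by
    simp only [eB, Finset.mul_sum]
    rw [Finset.sum_comm]
    refine Finset.sum_eq_zero fun t _ => ?_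
    have := congrArg (C α * (C (eta t : ℂ) * X t) * ·) (k2 t)
    simp only [Finset.mul_sum, mul_zero] at this
    rw [← this]
    exact Finset.sum_congr rfl fun r _ => by ring
  have q2 : ∑ s, C (eta s : ℂ) * X s * ∑ r, C (eta r : ℂ) * X r * B r s = 0 := by
    rw [← mul_zero (C α), ← sym3 (fun r => C (eta r : ℂ) * X r) A k1]
    conv_rhs => rw [Finset.sum_comm, Finset.mul_sum]
    refine Finset.sum_congr rfl fun s _ => ?_
    rw [Finset.mul_sum, Finset.mul_sum]
    refine Finset.sum_congr rfl fun r _ => ?_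
    simp only [eB, Finset.mul_sum]
    exact Finset.sum_congr rfl fun t _ => by ring
  obtain ⟨Q, hQ⟩ := hL.kill2 q1 q2
  simpa using (hB r s a b).add (show mup ∣ X a * (X b * B r s) from
    ⟨X a * (X b * C (Q r s)), by rw [hQ]; ring⟩)

/-- **The relations (R2), (R1), (R0).** -/
theorem kill783 (π2 : Ix → Ix → Ix → Ix → Ix → Ix → MvPolynomial Ix ℂ)
    (π1 : Ix → Ix → Ix → Ix → Ix → MvPolynomial Ix ℂ)
    (πY : Ix → Ix → Ix → Ix → MvPolynomial Ix ℂ) (α β : ℂ)
    (h2 : ∀ n s m k, Lg2 4 (π2 n s m k)) (h1 : ∀ s m k, Lg2 3 (π1 s m k))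
    (sy2 : ∀ n s m k a b, π2 n s m k a b = π2 s n m k a b)
    (an2 : ∀ n s m k a b, π2 n s m k a b = -π2 n s k m a b)
    (an1 : ∀ s m k a b, π1 s m k a b = -π1 s k m a b)
    (R2 : ∀ n s k a b, ∑ m, C (eta m : ℂ) * X m * π2 n s m k a b = 0)
    (R1 : ∀ r s a b, mup ∣ πY r s a b - (C α * ∑ m, C (eta m : ℂ) * X m * π1 s m r a b +
      C β * ∑ n, C (eta n : ℂ) * π2 s n n r a b))
    (R0 : ∀ r a b, ∑ s, C (eta s : ℂ) * π1 s s r a b = 0)
    (r1 : ∀ r s k a b, mup ∣ πY r s a b * X k - πY k s a b * X r)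
    (r2 : ∀ r s k a b, mup ∣ πY r s a b * X k - πY r k a b * X s) (r s a b : Ix) :
    mup ∣ πY r s a b := by
  choose A hA hd using fun s m k => (h1 s m k).sigma
  choose A0 hA0 hd0 using fun n s m k => (h2 n s m k).sigma
  set E : Ix → Ix → Ix → Ix → MvPolynomial Ix ℂ := fun n s m k =>
    C (4⁻¹ : ℂ) * (A0 n s m k + A0 s n m k - A0 n s k m - A0 s n k m)
  have c4 : C (4⁻¹ : ℂ) * 4 = (1 : MvPolynomial Ix ℂ) := by
    rw [show (4 : MvPolynomial Ix ℂ) = C 4 from rfl, ← map_mul]; norm_num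
  have hE : ∀ n s m k, (E n s m k).IsHomogeneous 2 := fun n s m k => by
    simpa using (isHomogeneous_C Ix (4⁻¹ : ℂ)).mul
      ((((hA0 _ _ _ _).add (hA0 _ _ _ _)).sub (hA0 _ _ _ _)).sub (hA0 _ _ _ _))
  have he : ∀ n s m k a b, mup ∣ π2 n s m k a b - X a * (X b * E n s m k) := fun n s m k a b => by
    convert ((((hd0 n s m k a b).add (hd0 s n m k a b)).sub (hd0 n s k m a b)).sub
      (hd0 s n k m a b)).mul_left (C (4⁻¹ : ℂ)) using 1
    simp only [E]
    linear_combination (-π2 n s m k a b) * c4 + C (4⁻¹ : ℂ) * (sy2 n s m k a b + an2 n s m k a b +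
      an2 s n m k a b + sy2 n s m k a b)
  have es : ∀ n s m k, E n s m k = E s n m k := fun n s m k => by simp only [E]; ring
  have ea : ∀ n s m k, E n s m k = -E n s k m := fun n s m k => by simp only [E]; ring
  have k1 : ∀ s m k, A s m k = -A s k m := fun s m k => eq_neg_of_add_eq_zero_left
    (low one_lt_two ((hA _ _ _).add (hA _ _ _)) (dvd_of2 (by
      convert ((hd s m k 0 0).add (hd s k m 0 0)).neg_right using 1
      linear_combination an1 s m k 0 0)))
  have k2 : ∀ r, ∑ s, C (eta s : ℂ) * A s s r = 0 := fun r =>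
    low one_lt_two (IsHomogeneous.sum _ _ _ fun s _ => by
      simpa using (isHomogeneous_C Ix (eta s : ℂ)).mul (hA s s r)) (dvd_of2 (by
      have := (Finset.dvd_sum fun s (_ : s ∈ Finset.univ) =>
        (hd s s r 0 0).mul_left (C (eta s : ℂ))).neg_right
      simp only [mul_sub, Finset.sum_sub_distrib, R0] at this
      convert this using 1
      simp only [Finset.mul_sum, zero_sub, neg_neg]
      exact Finset.sum_congr rfl fun r _ => by ring))
  have k3 : ∀ n s k, mup ∣ ∑ m, C (eta m : ℂ) * X m * E n s m k := fun n s k => dvd_of2 (by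
    have := (Finset.dvd_sum fun m (_ : m ∈ Finset.univ) =>
      (he n s m k 0 0).mul_left (C (eta m : ℂ) * X m)).neg_right
    simp only [mul_sub, Finset.sum_sub_distrib, R2] at this
    convert this using 1
    simp only [Finset.mul_sum, zero_sub, neg_neg]
    exact Finset.sum_congr rfl fun r _ => by ring)
  choose v hv using k3
  have anti : ∀ F : Ix → Ix → MvPolynomial Ix ℂ, (∀ m k, F m k = -F k m) → ∑ m, ∑ k, F m k = 0 :=
    fun F hF => by
      have e : ∑ m, ∑ k, F m k = -∑ m, ∑ k, F m k := by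
        conv_lhs => rw [Finset.sum_comm]
        simp only [← Finset.sum_neg_distrib, ← hF]
      have e2 : (2 : MvPolynomial Ix ℂ) * ∑ m, ∑ k, F m k = 0 := by linear_combination e
      exact (mul_eq_zero.1 e2).resolve_left (by norm_num)
  have vs : ∀ n s k, v n s k = v s n k := fun n s k =>
    mul_left_cancel₀ mup_ne (by simp only [← hv, es n s])
  have vh : ∀ n s k, (v n s k).IsHomogeneous 1 := fun n s k => hom_of_mul (hv n s k ▸
    IsHomogeneous.sum _ _ _ fun m _ => by
      simpa using ((isHomogeneous_C Ix (eta m : ℂ)).mul (isHomogeneous_X ℂ m)).mul (hE n s m k))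
  have vd : ∀ n s, ∑ k, C (eta k : ℂ) * X k * v n s k = 0 := fun n s =>
    mul_left_cancel₀ mup_ne (by
      rw [mul_zero, Finset.mul_sum, ← anti (fun k m => C (eta k : ℂ) * X k *
        (C (eta m : ℂ) * X m * E n s m k)) fun m k => by rw [ea n s k m]; ring]
      exact Finset.sum_congr rfl fun k _ => by rw [mul_left_comm, ← hv, Finset.mul_sum])
  have va : ∀ n s i j, C (eta i : ℂ) * pderiv j (v n s i) + C (eta j : ℂ) * pderiv i (v n s j) = 0 :=
    fun n s i j => by
      have z : ∀ k, pderiv j (pderiv i (v n s k)) = 0 := fun k => by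
        obtain ⟨a, ha⟩ := const (show (pderiv i (v n s k)).IsHomogeneous 0 from (vh n s k).pderiv)
        rw [ha, pderiv_C]
      have d1 : ∀ (i : Ix) (F : Ix → MvPolynomial Ix ℂ), pderiv i (∑ k, C (eta k : ℂ) * X k * F k) =
          C (eta i : ℂ) * F i + ∑ k, C (eta k : ℂ) * X k * pderiv i (F k) := fun i F => by
        simp only [map_sum, pderiv_mul, pderiv_C, zero_mul, zero_add, Finset.sum_add_distrib]
        rw [Finset.sum_eq_single i (fun b _ hb => by rw [pderiv_X_of_ne hb]; ring) (by simp),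
          pderiv_X_self, mul_one]
      have := congrArg (fun P => pderiv j (pderiv i P)) (vd n s)
      simp only [d1, map_add, pderiv_C_mul, z, mul_zero, Finset.sum_const_zero, add_zero,
        map_zero] at this
      exact this
  set B : Ix → Ix → MvPolynomial Ix ℂ := fun r s =>
    C α * ∑ m, C (eta m : ℂ) * X m * A s m r + C β * ∑ n, C (eta n : ℂ) * E s n n r
  have hB : ∀ r s a b, mup ∣ πY r s a b - X a * (X b * B r s) := fun r s a b => by
    have t1 := (Finset.dvd_sum fun m (_ : m ∈ Finset.univ) =>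
      (hd s m r a b).mul_left (C (eta m : ℂ) * X m)).mul_left (C α)
    have t2 := (Finset.dvd_sum fun n (_ : n ∈ Finset.univ) =>
      (he s n n r a b).mul_left (C (eta n : ℂ))).mul_left (C β)
    convert ((R1 r s a b).add t1).add t2 using 1
    have u1 : ∑ m, C (eta m : ℂ) * X m * (X a * (X b * A s m r)) =
        X a * (X b * ∑ m, C (eta m : ℂ) * X m * A s m r) := by
      simp only [Finset.mul_sum]
      exact Finset.sum_congr rfl fun r _ => by ring
    have u2 : ∑ n, C (eta n : ℂ) * (X a * (X b * E s n n r)) =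
        X a * (X b * ∑ n, C (eta n : ℂ) * E s n n r) := by
      simp only [Finset.mul_sum]
      exact Finset.sum_congr rfl fun r _ => by ring
    simp only [B, mul_sub, Finset.sum_sub_distrib, u1, u2]
    ring
  have hL := fin_dvd (fun r s => by
    refine IsHomogeneous.add ?_ ?_
    · simpa using (isHomogeneous_C Ix α).mul (IsHomogeneous.sum _ _ _ fun t _ => by
        simpa using ((isHomogeneous_C Ix (eta t : ℂ)).mul (isHomogeneous_X ℂ t)).mul (hA s t r))
    · simpa using (isHomogeneous_C Ix β).mul (IsHomogeneous.sum _ _ _ fun t _ => by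
        simpa using (isHomogeneous_C Ix (eta t : ℂ)).mul (hE s t t r))) hB r1 r2
  obtain ⟨Q, hQ⟩ := hL.kill (by
    have t1 : ∑ r, ∑ m, C (eta r : ℂ) * (C (eta m : ℂ) * X m * A r m r) = 0 := by
      rw [Finset.sum_comm]
      refine Finset.sum_eq_zero fun m _ => ?_
      have := congrArg (-(C (eta m : ℂ) * X m) * ·) (k2 m)
      simp only [Finset.mul_sum, mul_zero] at this
      rw [← this]
      exact Finset.sum_congr rfl fun r _ => by rw [k1 r m r]; ring
    have t2 := anti (fun r n => C (eta r : ℂ) * (C (eta n : ℂ) * E r n n r)) fun m k => by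
      rw [es m k, ea k m]; ring
    simp only [B, mul_add, Finset.sum_add_distrib, mul_left_comm _ (C α), mul_left_comm _ (C β),
      ← Finset.mul_sum]
    simp only [Finset.mul_sum] at t1 t2 ⊢
    simp only [← Finset.mul_sum] at t1 t2 ⊢
    rw [t1, t2, mul_zero, mul_zero, add_zero])
    (fun s => -(C β * ∑ n, C (eta n : ℂ) * v s n n)) (fun s => by
      have t1 := anti (fun r m => C (eta r : ℂ) * X r * (C (eta m : ℂ) * X m * A s m r))
        fun m k => by rw [k1 s k m]; ring
      have t2 : ∑ r, ∑ n, C (eta r : ℂ) * X r * (C (eta n : ℂ) * E s n n r) =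
          -(mup * ∑ n, C (eta n : ℂ) * v s n n) := by
        rw [Finset.sum_comm, Finset.mul_sum, ← Finset.sum_neg_distrib]
        refine Finset.sum_congr rfl fun n _ => ?_
        rw [mul_left_comm, ← hv, Finset.mul_sum, ← Finset.sum_neg_distrib]
        exact Finset.sum_congr rfl fun r _ => by rw [ea s n n r]; ring
      simp only [B, mul_add, Finset.sum_add_distrib, mul_left_comm _ (C α), mul_left_comm _ (C β),
        ← Finset.mul_sum]
      simp only [← Finset.mul_sum] at t1 t2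
      rw [t1, t2]
      ring) (by
      simp only [map_neg, pderiv_C_mul, map_sum, Finset.sum_neg_distrib, ← Finset.mul_sum]
      rw [anti (fun s n => C (eta n : ℂ) * pderiv s (v s n n)) fun s n => by
        rw [vs n s s]; linear_combination va s n n s, mul_zero, neg_zero])
  simpa [hQ] using (hB r s a b).add (show mup ∣ X a * (X b * B r s) from
    ⟨X a * (X b * C (Q r s)), by rw [hQ]; ring⟩)

end Vale.Agent.P352X.ZZ.SA
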