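import Vale.Agent.P352Z.SA.Defs

/-!
# P352Z, step A: from the consistency condition to the relations (R2), (R1), (R0) (helper27)
-/

set_option linter.all false

namespace Vale.Agent.P352X.ZZ.SA

open Vale.Agent.P352 Vale.Agent.P352.GF MvPolynomial
open Complex (I)

lemma polar {F0 : R} {F1 : Ix → R} {F2 : Ix → Ix → R} {F3 : Ix → Ix → Ix → R}
    (h : ∀ x : V, F0 + ∑ a, C (x a : ℂ) * F1 a + ∑ a, ∑ b, C (x a : ℂ) * C (x b : ℂ) * F2 a b +
      ∑ a, ∑ b, ∑ c, C (x a : ℂ) * C (x b : ℂ) * C (x c : ℂ) * F3 a b c = 0) :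
    F0 = 0 ∧ (∀ a, F1 a = 0) ∧ (∀ a b, F2 a b + F2 b a = 0) ∧ ∀ a b c,
      F3 a b c + F3 a c b + F3 b a c + F3 b c a + F3 c a b + F3 c b a = 0 := by
  have h0 : F0 = 0 := by simpa using h 0
  have k : ∀ x : V, ∑ a, C (x a : ℂ) * F1 a = 0 ∧
      ∑ a, ∑ b, C (x a : ℂ) * C (x b : ℂ) * F2 a b = 0 ∧
      ∑ a, ∑ b, ∑ c, C (x a : ℂ) * C (x b : ℂ) * C (x c : ℂ) * F3 a b c = 0 := fun x => by
    have h1 := h x
    have h2 := h (-x)
    have h3 := h (x + x)
    simp only [Pi.neg_apply, Pi.add_apply, Complex.ofReal_neg, Complex.ofReal_add, map_neg, map_add,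
      neg_mul, mul_neg, neg_neg, add_mul, mul_add, Finset.sum_neg_distrib,
      Finset.sum_add_distrib] at h2 h3
    refine ⟨mul_left_cancel₀ (a := 6) (by norm_num) ?_, mul_left_cancel₀ (a := 2) (by norm_num) ?_,
      mul_left_cancel₀ (a := 6) (by norm_num) ?_⟩
    · linear_combination 6 * h1 - 2 * h2 - h3 - 3 * h0
    · linear_combination h1 + h2 - 2 * h0
    · linear_combination h3 - 3 * h1 - h2 + 3 * h0
  have e : ∀ a b : Ix, (C (bas a 1 b : ℂ) : R) = if b = a then 1 else 0 := fun a b => by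
    unfold bas; split_ifs <;> simp
  refine ⟨h0, fun a => ?_, fun a b => ?_, fun a b c => ?_⟩
  · simpa [e] using (k (bas a 1)).1
  · have h1 := (k (bas a 1 + bas b 1)).2.1
    have h2 := (k (bas a 1)).2.1
    have h3 := (k (bas b 1)).2.1
    simp only [Pi.add_apply, Complex.ofReal_add, map_add, add_mul, mul_add, Finset.sum_add_distrib,
      e, ite_mul, mul_ite, one_mul, mul_one, zero_mul, mul_zero, Finset.sum_ite_eq',
      Finset.mem_univ, if_true, Finset.sum_ite_irrel, Finset.sum_const_zero] at h1 h2 h3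
    linear_combination h1 - h2 - h3
  · have h1 := (k (bas a 1 + bas b 1 + bas c 1)).2.2
    have h2 := (k (bas a 1 + bas b 1)).2.2
    have h3 := (k (bas a 1 + bas c 1)).2.2
    have h4 := (k (bas b 1 + bas c 1)).2.2
    have h5 := (k (bas a 1)).2.2
    have h6 := (k (bas b 1)).2.2
    have h7 := (k (bas c 1)).2.2
    simp only [Pi.add_apply, Complex.ofReal_add, map_add, add_mul, mul_add, Finset.sum_add_distrib,
      e, ite_mul, mul_ite, one_mul, mul_one, zero_mul, mul_zero, Finset.sum_ite_eq',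
      Finset.mem_univ, if_true, Finset.sum_ite_irrel, Finset.sum_const_zero] at h1 h2 h3 h4 h5 h6 h7
    linear_combination h1 - h2 - h3 - h4 + h5 + h6 + h7

variable {q : Ix → R} {o0 : Ix → Ix → Ix → R} {o1 : Ix → Ix → Ix → Ix → R}
  {o2 : Ix → Ix → Ix → Ix → Ix → R}

/-- the relations (0), (A), (B), (C) -/
lemma abc (sy : ∀ n r s γ δ, o2 n r s γ δ = o2 n r s δ γ)
    (cc : ∀ (h : V) n s, ∑ r, (q r - C (h r : ℂ)) *
      lam (o0 n r s) (o1 n r s) (o2 n r s) (fun γ => C (h γ : ℂ)) =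
      ∑ m, C (h m : ℂ) * lam (o0 s m n) (o1 s m n) (o2 s m n) fun γ => q γ - C (h γ : ℂ)) (n s : Ix) :
    ∑ r, q r * o0 n r s = 0 ∧
    (∀ a, 2 * (-o0 n a s + ∑ r, q r * o1 n r s a - o0 s a n - ∑ γ, q γ * o1 s a n γ) -
      ∑ γ, ∑ δ, q γ * q δ * o2 s a n γ δ = 0) ∧
    (∀ a b, -o1 n a s b - o1 n b s a + ∑ r, q r * o2 n r s a b + o1 s a n b + o1 s b n a +
      ∑ γ, q γ * (o2 s a n b γ + o2 s b n a γ) = 0) ∧
    ∀ a b c, o2 n a s b c + o2 n b s a c + o2 n c s a b +
      (o2 s a n b c + o2 s b n a c + o2 s c n a b) = 0 := by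
  have c2 : (C (2⁻¹ : ℂ) : R) * 2 = 1 := by
    rw [show (2 : R) = C 2 from rfl, ← map_mul]; norm_num
  obtain ⟨k0, k1, k2, k3⟩ := polar (F0 := 2 * ∑ r, q r * o0 n r s)
    (F1 := fun a => 2 * (-o0 n a s + ∑ r, q r * o1 n r s a - o0 s a n - ∑ γ, q γ * o1 s a n γ) -
      ∑ γ, ∑ δ, q γ * q δ * o2 s a n γ δ)
    (F2 := fun a b => -2 * o1 n a s b + ∑ r, q r * o2 n r s a b + 2 * o1 s a n b +
      ∑ γ, q γ * (o2 s a n b γ + o2 s a n γ b))
    (F3 := fun a b c => -o2 n a s b c - o2 s a n b c) fun h => by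
      have := cc h n s
      simp only [lam, smul_eq_C_mul] at this
      have e : ∀ (x y z : R), 2 * (x * (y + C (2⁻¹ : ℂ) * z)) = x * (2 * y + z) := fun x y z => by
        linear_combination x * z * c2
      replace this := congrArg (2 * ·) this
      simp only [Finset.mul_sum _ _ (2 : R), e] at this
      simp only [Fin.sum_univ_four] at this ⊢
      linear_combination this
  refine ⟨by simpa using k0, k1, fun a b => mul_left_cancel₀ (a := 2) (by norm_num) ?_,
    fun a b c => mul_left_cancel₀ (a := 2) (by norm_num) ?_⟩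
  · have := k2 a b
    simp only [sy _ _ _ b a, fun γ => sy s a n γ b, fun γ => sy s b n γ a] at this
    simp only [Fin.sum_univ_four] at this ⊢
    linear_combination this
  · have := k3 a b c
    simp only [sy _ _ _ c b, sy _ _ _ c a, sy _ _ _ b a] at this
    linear_combination -this

lemma Lg2.add {d : ℕ} {π π' : Ix → Ix → R} (h : Lg2 d π) (h' : Lg2 d π') :
    Lg2 d fun a b => π a b + π' a b :=
  ⟨fun a b => (h.hom a b).add (h'.hom a b),
    fun a b k => by convert (h.dv1 a b k).add (h'.dv1 a b k) using 1; ring,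
    fun a b k => by convert (h.dv2 a b k).add (h'.dv2 a b k) using 1; ring⟩

lemma Lg2.mul {d e : ℕ} {π : Ix → Ix → R} (h : Lg2 d π) {P : R} (hP : P.IsHomogeneous e) :
    Lg2 (e + d) fun a b => P * π a b :=
  ⟨fun a b => hP.mul (h.hom a b),
    fun a b k => by convert (h.dv1 a b k).mul_left P using 1; ring,
    fun a b k => by convert (h.dv2 a b k).mul_left P using 1; ring⟩

lemma Lg2.cmul {d : ℕ} {π : Ix → Ix → R} (h : Lg2 d π) (z : ℂ) : Lg2 d fun a b => C z * π a b := by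
  simpa using h.mul (isHomogeneous_C Ix z)

lemma Lg2.sub {d : ℕ} {π π' : Ix → Ix → R} (h : Lg2 d π) (h' : Lg2 d π') :
    Lg2 d fun a b => π a b - π' a b := by
  simpa [sub_eq_add_neg] using h.add (h'.cmul (-1))

lemma Lg2.sum {d : ℕ} {π : Ix → Ix → Ix → R} (h : ∀ i, Lg2 d (π i)) :
    Lg2 d fun a b => ∑ i, π i a b := by
  simpa only [Fin.sum_univ_four] using (((h 0).add (h 1)).add (h 2)).add (h 3)

lemma hom_qq (r : Ix) : (qq r).IsHomogeneous 1 := by
  simpa [qq] using (isHomogeneous_C Ix (-I * eta r)).mul (isHomogeneous_X ℂ r)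

/-- the metric -/
noncomputable def gg (r n : Ix) : ℂ := if r = n then eta r else 0

lemma gg_comm (r n : Ix) : gg r n = gg n r := by
  unfold gg
  split_ifs with h h' h' <;> simp_all

lemma ee (r : Ix) : (C (eta r : ℂ) : R) * C (eta r : ℂ) = 1 := by
  rw [← map_mul, ← Complex.ofReal_mul, Two.eta_sq]; simp

lemma sum_gg (F : Ix → R) (n : Ix) : ∑ m, C (gg m n) * F m = C (eta n : ℂ) * F n := by
  simp [gg, apply_ite C]

/-- **The algebra of step A.** -/
theorem alg {o0 : Ix → Ix → Ix → Ix → Ix → R} {o1 : Ix → Ix → Ix → Ix → Ix → Ix → R}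
    {o2 : Ix → Ix → Ix → Ix → Ix → Ix → Ix → R} {t y : Ix → Ix → Ix → Ix → R}
    (l1 : ∀ n r s γ, Lg2 4 (o1 n r s γ)) (l2 : ∀ n r s γ δ, Lg2 3 (o2 n r s γ δ))
    (lt : ∀ r s, Lg2 4 (t r s)) (ly : ∀ a b, Lg2 4 fun r s => y r s a b)
    (sy : ∀ n r s γ δ a b, o2 n r s γ δ a b = o2 n r s δ γ a b)
    (cc : ∀ a b (h : V) n s, ∑ r, (qq r - C (h r : ℂ)) * lam (o0 n r s a b)
      (fun γ => o1 n r s γ a b) (fun γ δ => o2 n r s γ δ a b) (fun γ => C (h γ : ℂ)) =
      ∑ m, C (h m : ℂ) * lam (o0 s m n a b) (fun γ => o1 s m n γ a b)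
        (fun γ δ => o2 s m n γ δ a b) fun γ => qq γ - C (h γ : ℂ))
    (hP : ∀ n r s a b, C (eta n : ℂ) * o0 n r s a b = -C I * (qq n * t r s a b))
    (hD : ∀ r s a b, ∑ n, C (eta n : ℂ) * o1 n r s n a b = -C I * (y r s a b - 4 * t r s a b))
    (t0 : ∀ n a b, ∑ r, C (eta r : ℂ) * o0 n r r a b = 0)
    (t1 : ∀ n γ a b, ∑ r, C (eta r : ℂ) * o1 n r r γ a b = 0)
    (t2 : ∀ n γ δ a b, ∑ r, C (eta r : ℂ) * o2 n r r γ δ a b = 0) (r s a b : Ix) :
    mup ∣ y r s a b := by
  have H := fun a b => abc (q := qq) (o0 := fun n r s => o0 n r s a b)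
    (o1 := fun n r s γ => o1 n r s γ a b) (o2 := fun n r s γ δ => o2 n r s γ δ a b)
    (fun n r s γ δ => sy n r s γ δ a b) (cc a b)
  have ii : (C I : R) * C I = -1 := by rw [← map_mul]; simp
  have eq : ∀ m, C (eta m : ℂ) * X m = C I * qq m := fun m => by
    simp only [qq, map_mul, map_neg]
    linear_combination (C (eta m : ℂ) * X m) * ii
  have e0 : ∀ n r s a b, o0 n r s a b = -X n * t r s a b := fun n r s a b => by
    linear_combination C (eta n : ℂ) * hP n r s a b - (o0 n r s a b + X n * t r s a b) * ee n +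
      C (eta n : ℂ) * t r s a b * eq n
  have x0 : (X 0 : R) ≠ 0 := X_ne_zero 0
  have ct : ∀ s a b, ∑ r, qq r * t r s a b = 0 := fun s a b => mul_left_cancel₀ x0 (by
    have := (H a b 0 s).1
    simp only [e0, Fin.sum_univ_four] at this ⊢
    linear_combination -this)
  have tt : ∀ a b, ∑ r, C (eta r : ℂ) * t r r a b = 0 := fun a b => mul_left_cancel₀ x0 (by
    have := t0 0 a b
    simp only [e0, Fin.sum_univ_four] at this ⊢
    linear_combination -this)
  let β : Ix → Ix → Ix → Ix → Ix → Ix → R := fun n s r k a b =>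
    C 3 * (o1 n r s k a b - o1 n k s r a b) +
      ∑ δ, qq δ * (o2 n r s k δ a b - o2 n k s r δ a b)
  let a' : Ix → Ix → Ix → Ix → Ix → R := fun s k δ a b => ∑ n, C (eta n : ℂ) * o2 s k n n δ a b
  let c' : Ix → Ix → Ix → Ix → Ix → R := fun k s δ a b => ∑ n, C (eta n : ℂ) * o2 n k s n δ a b
  have c3 : (C 3 : R) = 3 := rfl
  have c6 : (C 6⁻¹ : R) * 6 = 1 := by
    rw [show (6 : R) = C 6 from rfl, ← map_mul]; norm_num
  have lβ : ∀ n s r k, Lg2 4 (β n s r k) := fun n s r k => (((l1 _ _ _ _).sub (l1 _ _ _ _)).cmul 3).add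
    (Lg2.sum fun δ => ((l2 _ _ _ _ _).sub (l2 _ _ _ _ _)).mul (hom_qq δ))
  have la : ∀ s k δ, Lg2 3 (a' s k δ) := fun s k δ => Lg2.sum fun n => (l2 _ _ _ _ _).cmul _
  have lc : ∀ s k δ, Lg2 3 (c' s k δ) := fun s k δ => Lg2.sum fun n => (l2 _ _ _ _ _).cmul _
  have CC : ∀ s k m a b, ∑ n, C (eta n : ℂ) * o2 n n s k m a b + c' k s m a b + c' m s k a b +
      a' s k m a b + a' s m k a b = 0 := fun s k m a b => by
    have := Finset.sum_congr rfl fun n (_ : n ∈ Finset.univ) =>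
      congrArg (C (eta n : ℂ) * ·) ((H a b n s).2.2.2 n k m)
    have t := t2 s k m a b
    simp only [a', c', Fin.sum_univ_four, mul_zero, add_zero] at this t ⊢
    linear_combination this - t
  refine kill783 (fun n s r k a b => β n s r k a b + β s n r k a b + C (6 * I) *
      (C (gg r n) * t k s a b - C (gg k n) * t r s a b + C (gg r s) * t k n a b -
        C (gg k s) * t r n a b))
    (fun s m k a b => C 2 * (c' m s k a b - c' k s m a b) - (a' s m k a b - a' s k m a b)) y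
    6⁻¹ (-I * 6⁻¹)
    (fun n s r k => ((lβ _ _ _ _).add (lβ _ _ _ _)).add ((((((lt _ _).cmul _).sub
      ((lt _ _).cmul _)).add ((lt _ _).cmul _)).sub ((lt _ _).cmul _)).cmul _))
    (fun s m k => (((lc _ _ _).sub (lc _ _ _)).cmul _).sub ((la _ _ _).sub (la _ _ _)))
    (fun n s m k a b => by ring) (fun n s m k a b => ?_) (fun s m k a b => by ring)
    (fun n s k a b => ?_) (fun r s a b => ?_) (fun r a b => ?_)
    (fun r s k a b => (ly a b).dv1 r s k) (fun r s k a b => (ly a b).dv2 r s k) r s a b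
  · simp only [β, Fin.sum_univ_four]
    ring
  · have g : ∀ n, ∑ m, C (gg m n) * qq m = -C I * X n := fun n => by
      rw [sum_gg]
      linear_combination C I * C (eta n : ℂ) * eq n - (C I * X n) * ee n +
        C (eta n : ℂ) * qq n * ii
    have A := (H a b n s).2.1 k
    have B := Finset.sum_congr rfl fun l (_ : l ∈ Finset.univ) =>
      congrArg (qq l * ·) ((H a b n s).2.2.1 k l)
    have C' := Finset.sum_congr rfl fun l (_ : l ∈ Finset.univ) => Finset.sum_congr rfl
      fun m (_ : m ∈ Finset.univ) => congrArg (qq l * qq m * ·) ((H a b n s).2.2.2 k l m)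
    have g1 := g n
    have g2 := g s
    have c1 := ct n a b
    have c2 := ct s a b
    simp only [eq, β, c3, map_mul, show (C 6 : R) = 6 from rfl, e0, Fin.sum_univ_four, mul_zero,
      add_zero] at A B C' g1 g2 c1 c2 ⊢
    linear_combination C I * (3 * A + 3 * B - C' + 6 * C I * (t k s a b * g1 + t k n a b * g2 -
      C (gg k n) * c2 - C (gg k s) * c1) - 6 * (X n * t k s a b + X s * t k n a b) * ii)
  · have B := Finset.sum_congr rfl fun n (_ : n ∈ Finset.univ) =>
      congrArg (C (eta n : ℂ) * ·) ((H a b n s).2.2.1 n r)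
    have C' := Finset.sum_congr rfl fun m (_ : m ∈ Finset.univ) =>
      congrArg (qq m * ·) (CC s r m a b)
    have u := Finset.sum_congr rfl fun m (_ : m ∈ Finset.univ) =>
      congrArg (qq m * ·) (t2 s r m a b)
    have u1 := t1 s r a b
    have d := hD r s a b
    have g1 := sum_gg (fun n => C (eta n : ℂ) * t r n a b) s
    have g2 := sum_gg (fun n => C (eta n : ℂ) * t n s a b) r
    have g3 : ∑ n, C (eta n : ℂ) * C (gg n n) = (4 : R) := by simp [gg, ee]
    have g4 := tt a b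
    simp only [fun n => gg_comm n r, ← mul_assoc, ee] at g1 g2
    refine ⟨0, ?_⟩
    simp only [eq, β, a', c', c3, map_mul, map_neg, show (C 6 : R) = 6 from rfl,
      show (C 2 : R) = 2 from rfl, Fin.sum_univ_four, mul_zero,
      add_zero] at B C' u u1 d g1 g2 g3 g4 ⊢
    linear_combination -y r s a b * c6 + C 6⁻¹ * (C I * (C' - 3 * B + 4 * u + 6 * u1 - 6 * d +
      6 * C I * (g1 - g2 + t r s a b * g3 - C (gg r s) * g4)) + 6 * y r s a b * ii)
  · have C' := Finset.sum_congr rfl fun s (_ : s ∈ Finset.univ) =>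
      congrArg (C (eta s : ℂ) * ·) (CC s s r a b)
    have u := Finset.sum_congr rfl fun n (_ : n ∈ Finset.univ) =>
      congrArg (C (eta n : ℂ) * ·) (t2 n n r a b)
    refine mul_left_cancel₀ (a := 2) (by norm_num) ?_
    simp only [a', c', show (C 2 : R) = 2 from rfl, fun n s => sy s r n s n] at C' ⊢
    simp only [Fin.sum_univ_four, mul_zero, add_zero] at C' u ⊢
    linear_combination 5 * u - C'

end Vale.Agent.P352X.ZZ.SA
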