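import Vale.Agent.P352Z.SA.Main
import Vale.Agent.P352Z.TPD.Spec
import Vale.Agent.P352Z.S0.Ch

/-!
# P352Z, step A: the bridges to the blocks S0 and TPD (helper27)
-/

set_option linter.all false

namespace Vale.Agent.P352X.ZZ.SA

open Vale.Agent.P352 Vale.Agent.P352.GF Vale.Agent.P352.H246
open UniformSpace (Completion)

variable {D : Type*} [NormedAddCommGroup D] [InnerProductSpace ℂ D] {Q : Theory D} {c : Ctx D}
  {k : ℕ} {Tj Sj : ℕ → Ix → Ix → Fld D} {Vj : ℕ → Ix → Fld D} {A : (V → V) → D → D}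

lemma fld_ex0 {B : Fld D} (hB : Q.fld B) {f : Fn} (hf : IsTest f) (l : ℝ) (v : ℕ → D) :
    B f (ex0 k l v) = ex0 k l fun j => B f (v j) := by
  obtain ⟨B', -, h⟩ := Q.adj B hB
  exact ext_inner_right ℂ fun u => by simp only [ex0, sum_inner, inner_smul_left, h f _ u hf]

lemma LF.lt (F : LF Q k Tj) : LT Q (k + k) (fam2 k Tj) where
  p2 := F.p2l
  cov := F.cov
  conserved l n f v hf := by
    simp only [fam2, ← Two.ex0_sum', F.conserved _ n f v hf, Two.ex0_nil]
  trace l f v hf := by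
    have := fun j => F.trace j f v hf
    simp only [GF.tr] at this
    simp only [GF.tr, fam2, ← Two.ex0_sum, this, Two.ex0_nil]
  bian l i m n f v hf := by
    have := fun j => F.bian j i m n f v hf
    simp only [cu] at this
    simp only [cu, fam2, ← Two.ex0_sub, ← Two.ex0_smul, ← Two.ex0_plus, this, Two.ex0_nil]
  pl I J f g := by
    simp only [fam2, fun j => fld_ex0 (k := k) (Q.bose_fld _ ((F.p2 j).bose I.1 I.2)) ⟨f, rfl⟩,
      Two.ex0_coe]
    simp only [ex0, Finset.smul_sum, Complex.coe_smul, smul_smul]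
    refine .sum _ fun j hj => .sum _ fun i hi => (PL.mon (n := j + i) (by simp at hj hi; omega)
      (((j.factorial : ℝ)⁻¹ * (i.factorial : ℝ)⁻¹) • ((Tj j I.1 I.2 (ev f)
        (Tj i J.1 J.2 (ev g) Q.vac) : D) : Completion D))).congr fun l => ?_
    rw [smul_smul]
    congr 1
    ring

theorem tpdl_of (h : TPD.TPL c) : TPDL c := fun k Tj F =>
  let ⟨w, t, _⟩ := h _ _ F.lt
  ⟨_, w, t.fac, t.swap, t.trc, t.cov, t.pl⟩

/-- row BR -/
theorem br_row (h : S0.Out Q A k Sj Vj) : LF Q k (S0.Tj Sj Vj) where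
  p2 := h.p2j
  p2l l := S0.imp_fam k Sj Vj l ▸ h.p2l l
  top j m n f v hj hf := h.top j m n v hj hf
  conserved j n f v hf := h.consj j n v hf
  trace j f v hf := h.trj j v hf
  bian j i m n f v hf := h.bianj j i m n v hf
  cov l m n s L a f v hs hL hf := by
    simpa only [S0.Tl, S0.imp_fam] using h.covl l m n a v hs hL hf
  ch l r x K χ Ξ m n f hK hc hf hs := by
    have := h.ward l l m n x r hK hc hf hs Q.vac
    simp only [S0.Tl, S0.imp_fam] at this
    exact this.trans (congrArg _ (add_comm _ _))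

/-- **Step A**, from the rows STR and TPL -/
theorem sa_of (c : Ctx D) (str : ∀ R hR, STR (c.wT R hR)) (tpl : TPD.TPL c)
    (h : S0.Out c.Q A k Sj Vj) (j : ℕ) (m n : Ix) (f : Fn) (v : D) (hj : 1 ≤ j) (hf : IsTest f) :
    S0.Tj Sj Vj j m n f v = 0 := main_of c str (tpdl_of tpl) k _ (br_row h) j m n f v hj hf

end Vale.Agent.P352X.ZZ.SA
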