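import Vale.Agent.P352Z.SA.Ov

/-!
# P352Z, step A, row CC: the two divergences commute (helper27)
-/

set_option linter.all false

open MeasureTheory Filter Topology
open scoped SchwartzMap ComplexConjugate ContDiff LineDeriv

namespace Vale.Agent.P352X.ZZ.SA

open Vale.Agent.P352 Vale.Agent.P352.GF Vale.Agent.P352.BW Api4 Str
open UniformSpace (Completion)

noncomputable section

variable {D : Type*} [NormedAddCommGroup D] [InnerProductSpace ℂ D] {c : Ctx D} {a b : Ix}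
  {X Y : ℝ → Sch → Completion D} {P : Polynomial R}

lemma Ov.cgi (h : Ov c a b X P) (e : ∀ l (f' f : Sch), HasCompactSupport f →
    inner ℂ ((c.T a b (ev f') c.Q.vac : D) : Completion D) (Y l f) =
      inner ℂ ((c.T a b (ev f') c.Q.vac : D) : Completion D) (X l f)) : Ov c a b Y P :=
  fun l f' f hf => (e l f' f hf).trans (h l f' f hf)

lemma Ov.cg (h : Ov c a b X P) (e : ∀ l (f : Sch), HasCompactSupport f → Y l f = X l f) :
    Ov c a b Y P := h.cgi fun l _ f hf => by rw [e l f hf]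

lemma evl_alg (l : ℝ) (p : V) (z : ℂ) : evl l p (algebraMap ℂ _ z) = z := by
  simp [evl, Polynomial.algebraMap_apply]

lemma Ov.sm (h : Ov c a b X P) (z : ℂ) :
    Ov c a b (fun l f => z • X l f) (algebraMap ℂ _ z * P) := fun l f' f hf => by
  simp only [inner_smul_right, h l f' f hf, ← integral_const_mul, map_mul, evl_alg, mul_assoc]

lemma OV.sum (h : OV c) {ι : Type*} (s : Finset ι) {X : ι → ℝ → Sch → Completion D}
    {P : ι → Polynomial R} (e : ∀ i, Ov c a b (X i) (P i)) :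
    Ov c a b (fun l f => ∑ i ∈ s, X i l f) (∑ i ∈ s, P i) := Ov.sum s fun i _ => e i

/-- the exponent -/
def lh (h : V) : V →L[ℝ] ℂ := ∑ γ, (h γ : ℂ) • (Complex.ofRealCLM ∘L ContinuousLinearMap.proj γ)

lemma lh_bas (h : V) (r : Ix) : lh h (bas r 1) = h r := by
  simp [lh, bas, apply_ite ((↑) : ℝ → ℂ)]

lemma lh_neg (h u : V) : lh (-h) u = lh h (-u) := by simp [lh]

lemma fd_exp (h u : V) :
    HasFDerivAt (fun u => Complex.exp (lh h u)) (Complex.exp (lh h u) • lh h) u :=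
  (lh h).hasFDerivAt.cexp

/-- `h_γ + τ ∂_γ` -/
def DD (h : V) (τ : ℝ) (γ : Ix) : Sch →L[ℂ] Sch :=
  (h γ : ℂ) • .id ℂ Sch + (τ : ℂ) • LineDeriv.lineDerivOpCLM ℂ Sch (bas γ 1 : V)

lemma jet_succ (h : V) (τ : ℝ) (f : Sch) (z : V) {k : ℕ} (γ : Fin (k + 1) → Ix) :
    iteratedFDeriv ℝ (k + 1) (fun u => Complex.exp (lh h u) * f (z + τ • u)) 0
      (fun i => bas (γ i) 1) = iteratedFDeriv ℝ k (fun u => Complex.exp (lh h u) *
        DD h τ (γ (Fin.last k)) f (z + τ • u)) 0 fun i => bas (Fin.init γ i) 1 := by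
  have sm : ContDiff ℝ ∞ fun u => Complex.exp (lh h u) * f (z + τ • u) :=
    (lh h).contDiff.cexp.mul ((f.smooth ⊤).comp (by fun_prop))
  rw [iteratedFDeriv_succ_apply_right, ← iteratedFDeriv_clm_apply_const_apply
    (sm.fderiv_right (m := ∞) le_rfl) (ST.le_inf k)]
  congr 2
  funext u
  refine (congrArg (fun A : V →L[ℝ] ℂ => A _) ((fd_exp h u).fun_mul ((f.differentiableAt (x := z + τ • u)).hasFDerivAt.comp
    u (((hasFDerivAt_id u).const_smul τ).const_add z))).fderiv).trans ?_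
  simp [DD, lh_bas, SchwartzMap.lineDerivOp_apply_eq_fderiv]
  ring

lemma jets {h : V} {τ : ℝ} {G : S2} {f : Sch}
    (e : ∀ z, ∀ᶠ u in 𝓝 (0 : V), G (z + u, z) = Complex.exp (lh h u) * f (z + τ • u)) :
    dg ![] G = f ∧ (∀ γ, dg ![γ] G = DD h τ γ f) ∧
      ∀ γ δ, dg ![γ, δ] G = DD h τ γ (DD h τ δ f) := by
  have k := fun z k => (EventuallyEq.iteratedFDeriv ℝ (e z) k).eq_of_nhds
  refine ⟨sch_eq _ fun z => ?_, fun γ => sch_eq _ fun z => ?_, fun γ δ => sch_eq _ fun z => ?_⟩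
  · simp [k]
  · rw [k, jet_succ]
    simp
  · rw [k, jet_succ, jet_succ]
    simp [Fin.init]

lemma dg_cs {k : ℕ} (γ : Fin k → Ix) {G : S2} (hG : HasCompactSupport G) :
    HasCompactSupport (dg γ G) :=
  .intro (hG.image continuous_snd) fun x hx =>
    (dg_apply γ hG x).trans (pdA_zero γ G fun a => hx ⟨_, a, rfl⟩)

lemma OV.dd (h : OV c) {Z : ℝ → Sch →L[ℂ] Completion D} (e : Ov c a b (fun l f => Z l f) P)
    (x : V) (τ : ℝ) (γ : Ix) : Ov c a b (fun l f => Z l (DD x τ γ f))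
      ((algebraMap ℂ _ (x γ) + algebraMap ℂ _ τ * Polynomial.C (qq γ)) * P) := by
  rw [add_mul, mul_assoc]
  exact (h.add _ _ _ _ _ _ (e.sm _) ((h.der _ _ _ _ γ e).sm _)).cg fun l f _ => by simp [DD]

variable {K k0 : ℕ} {w : ℝ → I2 → I2 → S2 →L[ℂ] Completion D} {χ : V → ℂ}
  {O : (k : ℕ) → ℕ → (Fin (k + 3) → Ix) → Sch →L[ℂ] Completion D}
  {o : (k : ℕ) → (Fin k → Ix) → Polynomial R}

lemma ov_exp (h : OV c) (S : Stc c K w χ k0 O) {n r s : Ix}
    (ho : ∀ k γ, Ov c a b (ct w χ n r s γ) (o k γ)) (h3 : ∀ k γ, 3 ≤ k → o k γ = 0) (x : V) (τ : ℝ)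
    {G : Sch → S2} (hG : ∀ f : Sch, HasCompactSupport f → HasCompactSupport (G f))
    (e : ∀ f z, ∀ᶠ u in 𝓝 (0 : V), G f (z + u, z) = Complex.exp (lh x u) * f (z + τ • u)) :
    Ov c a b (fun l f => dv1 (w l) n (r, s) (G f)) (lam (o 0 ![]) (fun γ => o 1 ![γ])
      (fun γ δ => o 2 ![γ, δ]) fun γ =>
        algebraMap ℂ _ (x γ) + algebraMap ℂ _ τ * Polynomial.C (qq γ)) := by
  let Z : ∀ {k : ℕ}, (Fin k → Ix) → ℝ → Sch →L[ℂ] Completion D := fun γ l =>
    dvL (w l) n (r, s) ∘L ten2 (sch fun u => mon γ u * χ u)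
  have eZ : ∀ {k : ℕ} (γ : Fin k → Ix) l f, ct w χ n r s γ l f = Z γ l f := fun γ l f =>
    (dvL_apply _ _ _).symm
  have hZ : ∀ {k : ℕ} (γ : Fin k → Ix), Ov c a b (fun l f => Z γ l f) (o k γ) := fun γ =>
    (ho _ γ).cg fun l f _ => (eZ γ l f).symm
  simp only [lam, Algebra.smul_def, mul_assoc _ _ (o 2 _)]
  refine (h.add _ _ _ _ _ _ (h.add _ _ _ _ _ _ (hZ ![]) (h.sum _ fun γ => h.dd (hZ ![γ]) x τ γ))
    ((h.sum Finset.univ fun γ => h.sum Finset.univ fun δ => mul_left_comm (G := Polynomial R) _ _ _ ▸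
      h.dd (Z := fun l => Z ![γ, δ] l ∘L DD x τ γ) (h.dd (hZ ![γ, δ]) x τ γ) x τ δ).sm _)).cgi
    fun l f' f hf => ?_
  · obtain ⟨j0, j1, j2⟩ := jets (e f)
    rw [S.exp l n r s _ (hG f hf), inner_sum, ← Finset.sum_subset (Finset.range_subset_range.2
      (show 3 ≤ k0 + 1 from Nat.succ_le_succ S.two)) fun k _ hk => ?_, ← inner_sum]
    · simp only [Finset.sum_range_succ, Finset.sum_range_zero, zero_add, sum_cons,
        Finset.univ_unique, Finset.sum_singleton, eZ, Finset.smul_sum]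
      simp only [show ∀ γ : Fin 0 → Ix, γ = ![] from fun γ => Subsingleton.elim _ _, j0, j1, j2]
      simp
    · simp only [inner_sum, inner_smul_right]
      refine Finset.sum_eq_zero fun γ _ => ?_
      rw [ho k γ l f' _ (dg_cs γ (hG f hf)), h3 k γ (by simpa using hk)]
      simp

lemma dl_comm (v v' : V × V) (F : S2) : ∂_{v} (∂_{v'} F) = ∂_{v'} (∂_{v} F) := by
  have d2 := fun x => ((F.smooth ⊤).fderiv_right (m := ∞) le_rfl).differentiable (by simp) x
  have e : ∀ (h k : V × V) x, ∂_{h} (∂_{k} F) x = fderiv ℝ (fderiv ℝ F) x h k := fun h k x => by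
    rw [SchwartzMap.lineDerivOp_apply_eq_fderiv, show ((∂_{k} F : S2) : V × V → ℂ) = fun y =>
      fderiv ℝ F y k from funext (SchwartzMap.lineDerivOp_apply_eq_fderiv k F),
      fderiv_clm_apply (d2 x) (differentiableAt_const _)]
    simp
  ext x
  rw [e, e]
  exact ((F.smooth ⊤).contDiffAt.isSymmSndFDerivAt (by simp; norm_cast)).eq v v'

lemma dl_sw (v v' : V) (F : S2) : sw (∂_{(v, v')} F) = ∂_{(v', v)} (sw F) := by
  ext ⟨x, y⟩
  show ∂_{(v, v')} F (y, x) = _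
  simp only [SchwartzMap.lineDerivOp_apply, lineDeriv]
  rfl

lemma dl_near {F : S2} {g : V × V → ℂ} {g' : V × V →L[ℝ] ℂ} {z : V × V} (e : F =ᶠ[𝓝 z] g)
    (h : HasFDerivAt g g' z) (v : V × V) : ∂_{v} F z = g' v := by
  rw [SchwartzMap.lineDerivOp_apply_eq_fderiv, e.fderiv_eq, h.fderiv]

/-- **row CC** -/
theorem cc_row (h : OV c) : CC c := fun T K w χ k0 O a b o t S ho h3 x n s => by
  have dφ : Dc fun u => Complex.exp (lh x u) * χ u := dc_mul_left (lh x).contDiff.cexp S.dc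
  set φ := sch fun u => Complex.exp (lh x u) * χ u
  have cs : ∀ f : Sch, HasCompactSupport f → HasCompactSupport (ten2 φ f) := fun f hf => by
    have := (sch_ten2 dφ (dc_of_sch f hf)).1.2
    exact (funext fun z => by rw [ten2_apply, sch_apply dφ] : (ten2 φ f : V × V → ℂ) = _) ▸ this
  have e1 : ∀ (f : Sch) y, ∀ᶠ z : V × V in 𝓝 (y, y),
      ten2 φ f z = Complex.exp (lh x (z.1 - z.2)) * f z.2 := fun f y =>
    (near S.one continuous_id rfl y).mono fun z hz => by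
      rw [ten2_apply, sch_apply dφ, show χ (z.1 - z.2) = 1 from hz, mul_one]
  have e2 : ∀ (f : Sch) y, ∀ᶠ z : V × V in 𝓝 (y, y),
      sw (ten2 φ f) z = Complex.exp (lh x (z.2 - z.1)) * f z.1 := fun f y =>
    (continuous_swap.tendsto' (y, y) (y, y) rfl).eventually (e1 f y)
  have tz : ∀ z : V, Tendsto (fun u : V => (z + u, z)) (𝓝 0) (𝓝 (z, z)) := fun z =>
    Continuous.tendsto' (by fun_prop) _ _ (by simp)
  have Z := fun r => ov_exp h S (ho · n r s) (h3 · n r s) x 0 cs fun f z =>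
    ((tz z).eventually (e1 f z)).mono fun u hu => by simpa using hu
  have Z' := fun m => ov_exp h S (ho · s m n) (h3 · s m n) (-x) 1 (G := fun f => sw (ten2 φ f))
    (fun f hf => (cs f hf).comp_homeomorph (Homeomorph.prodComm V V)) fun f z =>
      ((tz z).eventually (e2 f z)).mono fun u hu => by simpa [lh_neg] using hu
  simp only [Complex.ofReal_zero, Complex.ofReal_one, map_zero, map_one, zero_mul, one_mul,
    add_zero, Pi.neg_apply, Complex.ofReal_neg, map_neg, neg_add_eq_sub] at Z Z'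
  simp only [sub_mul, sub_eq_add_neg (_ * _), ← neg_mul, ← map_neg]
  refine h.uniq a b _ _ _ (h.sum _ fun r => h.add _ _ _ _ _ _ (h.der _ _ _ _ r (Z r))
    ((Z r).sm _)) ((h.sum _ fun m => (Z' m).sm _).cg fun l f hf => ?_)
  have k1 : ∀ r, dv1 (w l) n (r, s) (ten2 φ (∂_{(bas r 1 : V)} f)) + -(x r : ℂ) •
      dv1 (w l) n (r, s) (ten2 φ f) = dv1 (w l) n (r, s) (∂_{((0, bas r 1) : V × V)} (ten2 φ f)) :=
    fun r => by
      simp only [← dvL_apply, ← map_smul, ← map_add]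
      refine (S.off l n (r, s)).congr fun y => ?_
      filter_upwards [(e1 f y).eventually_nhds, e1 _ y] with z a1 a2
      rw [dl_near a1 (((fd_exp x _).comp z (hasFDerivAt_fst.sub hasFDerivAt_snd)).fun_mul
        (f.differentiableAt.hasFDerivAt.comp z hasFDerivAt_snd)), a2]
      simp [lh_bas, SchwartzMap.lineDerivOp_apply_eq_fderiv]
      ring
  have k2 : ∀ m, (x m : ℂ) • dv1 (w l) s (m, n) (sw (ten2 φ f)) =
      dv1 (w l) s (m, n) (∂_{((0, bas m 1) : V × V)} (sw (ten2 φ f))) := fun m => by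
    rw [← dvL_apply, ← dvL_apply, ← map_smul]
    refine (S.off l s (m, n)).congr fun y => ?_
    filter_upwards [(e2 f y).eventually_nhds, e2 f y] with z a1 a2
    rw [dl_near a1 (((fd_exp x _).comp z (hasFDerivAt_snd.sub hasFDerivAt_fst)).fun_mul
      (f.differentiableAt.hasFDerivAt.comp z hasFDerivAt_fst)), SchwartzMap.smul_apply, a2]
    simp [lh_bas]
    ring
  simp only [k1, k2]
  simp only [dv1]
  rw [Finset.sum_comm]
  refine Finset.sum_congr rfl fun m _ => Finset.sum_congr rfl fun r _ => ?_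
  rw [t.swap l _ _ _ (sw _) fun _ _ => rfl, dl_sw, dl_sw, dl_comm]

end

end Vale.Agent.P352X.ZZ.SA
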