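import Vale.Agent.P352Z.SA.Spec
import Vale.Agent.P352X.R.F2.A

/-!
# P352Z, step A, row CHG: the charges fix two contact terms (helper20)
-/

set_option linter.all false

open MeasureTheory Filter Topology Set
open scoped SchwartzMap ComplexConjugate ContDiff LineDeriv

namespace Vale.Agent.P352X.ZZ.SA

open Vale.Agent.P352 Vale.Agent.P352.GF Vale.Agent.P352.BW Vale.Agent.P352.H246
open Vale.Agent.P352.H496 Vale.Agent.P352.H755 Vale.Agent.P352.H15
open UniformSpace (Completion)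
open Complex (I)

noncomputable section

namespace Cg

lemma dr_loc {u : V → ℝ} (hu : ContDiff ℝ ∞ u) {y : V} {a : ℝ} (h : ∀ᶠ z in 𝓝 y, u z = a) :
    ∀ᶠ z in 𝓝 y, ∀ m, dr m u z = 0 :=
  h.eventually_nhds.mono fun z hz m => by rw [Fp.dr_congr hz hu contDiff_const, Fp.dr_const]

/-- a charge density in the past of `K` -/
lemma geo {K : Set V} (hK : IsCompact K) : ∃ χ Ξ, Chg K χ Ξ ∧
    (∀ x ∈ K, ∀ᶠ z in 𝓝 x, χ z * Ξ z = 1) ∧
    (∀ x ∈ K, ∀ y, 0 ≤ (y - x) o → ∀ᶠ z in 𝓝 y, ∀ m, dr m Ξ z = 0) ∧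
    ∀ y ∈ K, ∀ x, 0 ≤ (y - x) o → 0 ≤ mdot (y - x) (y - x) →
      ∀ᶠ z in 𝓝 x, ∀ m, Ξ z * dr m χ z = 0 := by
  obtain ⟨ρ, h0, hρ⟩ := hK.isBounded.exists_pos_norm_le
  obtain ⟨κ, k1, -, k2, -⟩ := Ap.ex_chi (isCompact_closedBall (0 : V) (ρ + 2 + 2 * ρ)) isOpen_univ
    (subset_univ _)
  obtain ⟨σ, s1, s2, s3, -⟩ := Ap.ex_step (show -ρ - 2 < -ρ - 1 by linarith)
  have c : Continuous fun z : V => z o := continuous_apply o
  have sm : ContDiff ℝ ∞ fun z : V => σ (z o) := s1.comp (contDiff_apply ℝ ℝ o)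
  have e1 : ∀ z : V, -ρ - 1 < z o → ∀ᶠ x in 𝓝 z, σ (x o) = 1 := fun z hz =>
    (c.continuousAt.eventually (lt_mem_nhds hz)).mono fun x hx => s3 _ hx.le
  have e2 : ∀ z : V, z o < -ρ - 2 → ∀ᶠ x in 𝓝 z, σ (x o) = 0 := fun z hz =>
    (c.continuousAt.eventually (gt_mem_nhds hz)).mono fun x hx => s2 _ hx.le
  have e3 : ∀ z ∈ Jc K, |z o| ≤ ρ + 2 → ∀ᶠ x in 𝓝 z, κ x = 1 := fun z hz k =>
    k2 z (mem_closedBall_zero_iff.2 (Fp.jc_bd hρ hz k))
  have e4 : ∀ x ∈ K, |x o| ≤ ρ := fun x hx => (norm_le_pi_norm x o).trans (hρ x hx)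
  refine ⟨κ, fun z => σ (z o), ⟨k1, sm, ⟨ρ + 3, fun z _ =>
    ⟨fun k => e1 z (by linarith), fun k => e2 z (by linarith)⟩⟩, fun z hz => ?_⟩, fun x hx => ?_,
    fun x hx y hy => dr_loc sm (e1 y ?_), fun y hy x h1 h2 => ?_⟩
  · rcases le_or_gt |z o| (ρ + 2) with k | k
    · exact .inl (e3 z hz k)
    · right
      rcases lt_abs.1 k with k | k
      · filter_upwards [e1 z (by linarith)] with x hx
        rw [hx, (e1 z (by linarith)).self_of_nhds]
      · filter_upwards [e2 z (by linarith)] with x hx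
        rw [hx, (e2 z (by linarith)).self_of_nhds]
  · filter_upwards [k2 x (mem_closedBall_zero_iff.2 ((hρ x hx).trans (by linarith))),
      e1 x (by linarith [abs_le.1 (e4 x hx)])] with z a b
    rw [a, b, one_mul]
  · rw [Pi.sub_apply] at hy
    linarith [abs_le.1 (e4 x hx)]
  · rw [Pi.sub_apply] at h1
    rcases lt_or_ge (x o) (-ρ - 2) with k | k
    · exact (e2 x k).mono fun z hz m => by simp only [hz, zero_mul]
    · refine (dr_loc k1.1 (e3 x ⟨y, hy, ?_⟩ (abs_le.2 ⟨by linarith, by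
        linarith [abs_le.1 (e4 y hy)]⟩))).mono fun z hz m => by simp only [hz, mul_zero]
      rwa [← neg_sub y x, ← mu, mu_neg]

lemma dr_aff (x0 : V) (r : ℝ) (m n : Ix) (x : V) :
    dr m (fun x => eta n * (x0 + r • x) n) x = r * bas m (eta m) n := by
  by_cases h : n = m
  · subst h
    simp [dr, bas, mul_add, mul_comm]
  · simp [dr, bas, h]

lemma ev_cx {u : V → ℝ} (hu : Tst u) : ev (sch (cx u)) = cx u := Api4.coe_sch (Api4.dc_cx hu)

variable {D : Type*} [NormedAddCommGroup D] [InnerProductSpace ℂ D] {Q : Theory D}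
  {T : Ix → Ix → Fld D} {w : I2 → I2 → S2 →L[ℂ] Completion D}

/-- the flux through a closed surface around the second point -/
theorem flux (hT : ∀ m n, Q.fld (T m n))
    (con : ∀ n f v, IsTest f → ∑ m, T m n (pd m f) v = 0)
    (trc : ∀ f v, IsTest f → GF.tr T f v = 0)
    (fac : ∀ I J (f g : Sch) (F : S2), (∀ x y, F (x, y) = f x * g y) →
      Late (tsupport f) (tsupport g) →
        w I J F = ((T I.1 I.2 (ev f) (T J.1 J.2 (ev g) Q.vac) : D) : Completion D))
    (swap : ∀ I J (F G : S2), (∀ x y, G (x, y) = F (y, x)) → w I J F = w J I G)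
    (wtr : ∀ J, ∑ m, (eta m : ℂ) • w (m, m) J = 0) {f : Sch} (hf : HasCompactSupport f) :
    ∃ χ Ξ, Chg (tsupport f) χ Ξ ∧ (∀ x ∈ tsupport f, ∀ᶠ z in 𝓝 x, χ z * Ξ z = 1) ∧
      ∀ (r : ℝ) (x0 : V) (J : I2), ∑ n, dv1 w n J
        (ST.tens (sch (cx fun x => χ x * Ξ x * (eta n * (x0 + r • x) n))) f) =
      -(((∑ i, ∑ j, T i j (dens χ Ξ (fun z => x0 + r • z) i j) (T J.1 J.2 (ev f) Q.vac)) -
        T J.1 J.2 (ev f) (∑ i, ∑ j, T i j (dens χ Ξ (fun z => x0 + r • z) i j) Q.vac) : D) :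
          Completion D) := by
  obtain ⟨χ, Ξ, h, h1, h2, h3⟩ := geo hf.isCompact
  refine ⟨χ, Ξ, h, h1, fun r x0 J => ?_⟩
  have sX : ∀ n, ContDiff ℝ ∞ fun x : V => eta n * (x0 + r • x) n := fun n => by
    simp only [Pi.add_apply, Pi.smul_apply, smul_eq_mul]
    fun_prop
  have t0 : Tst fun x => χ x * Ξ x := Ap.cs_mul_r h.1 h.2.1
  have t1 : ∀ n, Tst fun x => χ x * Ξ x * (eta n * (x0 + r • x) n) := fun n => Ap.cs_mul_r t0 (sX n)
  have t2 : ∀ m n, Tst fun x => χ x * dr m Ξ x * (eta n * (x0 + r • x) n) := fun m n =>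
    Ap.cs_mul_r (Ap.cs_mul_r h.1 (Ap.smooth_dr h.2.1 m)) (sX n)
  have t3 : ∀ m n, Tst fun x => Ξ x * dr m χ x * (eta n * (x0 + r • x) n) := fun m n => by
    refine Ap.cs_mul_r (Ap.cs_mul_l h.2.1 ⟨Ap.smooth_dr h.1.1 m, ?_⟩) (sX n)
    rw [Ap.dr_eq' (h.1.1.differentiable (by simp))]
    exact h.1.2.fderiv_apply ℝ _
  set g := fun n => sch (cx fun x => χ x * Ξ x * (eta n * (x0 + r • x) n)) with hg
  set e := fun m n => sch (cx fun x => χ x * dr m Ξ x * (eta n * (x0 + r • x) n)) with he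
  set l := fun m n => sch (cx fun x => Ξ x * dr m χ x * (eta n * (x0 + r • x) n)) with hl
  set φ := sch (cx fun x => χ x * Ξ x) with hφ
  have ee : ∀ m n, dens χ Ξ (fun z => x0 + r • z) m n = ev (e m n) := fun m n =>
    (ev_cx (t2 m n)).symm
  have hd : ∀ m n, ∂_{(bas m 1 : V)} (g n) =
      e m n + l m n + ((r * bas m (eta m) n : ℝ) : ℂ) • φ := fun m n => by
    ext x
    show ev _ x = ev (e m n) x + ev (l m n) x + _ * ev φ x
    rw [← Grp.pd_ev, ev_cx (t1 n), ev_cx (t2 m n), ev_cx (t3 m n), ev_cx t0]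
    refine (Ap.pd_cx ((t1 n).1.differentiable (by simp) x) m).trans ?_
    rw [dr_mul' t0.1 (sX n), dr_mul' h.1.1 h.2.1]
    simp only [dr_aff, cx]
    push_cast
    ring
  have tr2 : ∀ {E : Type _} [AddCommGroup E] [Module ℂ E] (u : Ix → Ix → E),
      ∑ n, ∑ m, ((r * bas m (eta m) n : ℝ) : ℂ) • u m n = (r : ℂ) • ∑ m, (eta m : ℂ) • u m m :=
    fun u => by
      rw [Finset.sum_comm, Finset.smul_sum]
      refine Finset.sum_congr rfl fun m _ => ?_
      rw [Finset.sum_eq_single m (fun n _ hn => by simp [bas, hn]) (by simp), smul_smul,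
        ← Complex.ofReal_mul, show bas m (eta m) m = eta m from if_pos rfl]
  have c1 : ∀ v, ∑ n, ∑ m, T m n (ev (l m n)) v = -∑ m, ∑ n, T m n (ev (e m n)) v := fun v => by
    have a : ∑ n, ∑ m, Grp.fC (hT m n) v (∂_{(bas m 1 : V)} (g n)) = 0 :=
      Finset.sum_eq_zero fun n _ => by
        simpa only [Grp.fC_apply, Grp.pd_ev] using con n (ev (g n)) v ⟨_, rfl⟩
    simp only [hd, map_add, map_smul, Finset.sum_add_distrib, Grp.fC_apply] at a
    rw [tr2 fun m n => T m n (ev φ) v, show ∑ m, (eta m : ℂ) • T m m (ev φ) v = 0 from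
      trc _ v ⟨φ, rfl⟩, smul_zero, add_zero, Finset.sum_comm] at a
    exact eq_neg_of_add_eq_zero_right a
  have w1 : ∀ m n, w (m, n) J (ST.tens (e m n) f) =
      ((T J.1 J.2 (ev f) (T m n (ev (e m n)) Q.vac) : D) : Completion D) := fun m n =>
    (swap (m, n) J _ (ST.tens f (e m n)) fun x y => mul_comm _ _).trans
      (fac J (m, n) f _ _ (fun _ _ => rfl) fun x hx y hy k =>
        notMem_tsupport_iff_eventuallyEq.2 ((h2 x hx y k.1).mono fun z hz => by
          show ev (e m n) z = 0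
          rw [ev_cx (t2 m n), cx, hz]
          simp) hy)
  have w2 : ∀ m n, w (m, n) J (ST.tens (l m n) f) =
      ((T m n (ev (l m n)) (T J.1 J.2 (ev f) Q.vac) : D) : Completion D) := fun m n =>
    fac (m, n) J _ f _ (fun _ _ => rfl) fun x hx y hy k =>
      notMem_tsupport_iff_eventuallyEq.2 ((h3 y hy x k.1 k.2).mono fun z hz => by
        show ev (l m n) z = 0
        rw [ev_cx (t3 m n), cx, hz]
        simp) hx
  have dt : ∀ m n, ∂_{((bas m 1, 0) : V × V)} (ST.tens (g n) f) = ST.tens (e m n) f +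
      ST.tens (l m n) f + ((r * bas m (eta m) n : ℝ) : ℂ) • ST.tens φ f := fun m n => by
    rw [← ST.tensL_apply, ← ST.tensL_apply (e m n), ← ST.tensL_apply (l m n), ← ST.tensL_apply φ,
      ← map_smul, ← map_add, ← map_add, ← hd]
    ext ⟨x, y⟩
    exact Str.d_tens m (g n) f x y
  show ∑ n, ∑ m, w (m, n) J (∂_{((bas m 1, 0) : V × V)} (ST.tens (g n) f)) = _
  simp only [dt, map_add, map_smul, Finset.sum_add_distrib, w1, w2, ee]
  rw [tr2 fun m n => w (m, n) J (ST.tens φ f), show ∑ m, (eta m : ℂ) • w (m, m) J (ST.tens φ f) = 0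
    by simpa using congrArg (fun u => u (ST.tens φ f)) (wtr J), smul_zero, add_zero]
  simp only [← Str.coe_sum]
  rw [c1, Finset.sum_comm]
  simp only [Str.fld_lin (hT _ _) ⟨f, rfl⟩]
  rw [← Completion.coe_add, ← Completion.coe_neg]
  congr 1
  abel

end Cg

open Cg in
/-- **row CHG** -/
theorem chg_row {D : Type*} [NormedAddCommGroup D] [InnerProductSpace ℂ D] (c : Ctx D) :
    CHG c := by
  intro k Tj K w χ k0 O hL hw hS r s l
  have hT := fun m n => c.Q.bose_fld _ ((hL.p2l l).bose m n)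
  have con : ∀ n f v, IsTest f → ∑ m, fam2 k Tj l m n (pd m f) v = 0 := fun n f v hf => by
    simp only [fam2, ex0]
    rw [Finset.sum_comm]
    exact Finset.sum_eq_zero fun j _ => by
      rw [← Finset.smul_sum, hL.conserved j n f v hf, smul_zero]
  have trc : ∀ f v, IsTest f → GF.tr (fam2 k Tj l) f v = 0 := fun f v hf => by
    simp only [GF.tr, fam2, ex0, Finset.smul_sum, smul_comm (eta _ : ℂ)]
    rw [Finset.sum_comm]
    exact Finset.sum_eq_zero fun j _ => by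
      rw [← Finset.smul_sum, show ∑ m, (eta m : ℂ) • Tj j m m f v = 0 from hL.trace j f v hf,
        smul_zero]
  have dm := fun {k : ℕ} (γ : Fin k → Ix) => Api4.dc_mul_left (Str.smooth_mon γ) hS.dc
  have nr : ∀ {f : Sch} {u : V → ℝ}, (∀ x ∈ tsupport f, ∀ᶠ z in 𝓝 x, u z = 1) → ∀ x,
      ∀ᶠ z : V × V in 𝓝 (x, x), χ (z.1 - z.2) = 1 ∧ (u z.1 = 1 ∨ f z.2 = 0) := fun {f u} h x => by
    refine (Str.near hS.one continuous_id rfl x).and ?_
    by_cases hx : x ∈ tsupport f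
    · exact (continuous_fst.continuousAt.eventually (h x hx)).mono fun z => .inl
    · exact (continuous_snd.continuousAt.eventually
        (notMem_tsupport_iff_eventuallyEq.1 hx)).mono fun z => .inr
  have hP : ∀ f : Sch, HasCompactSupport f → ∀ n, (eta n : ℂ) • ct w χ n r s ![] l f =
      -I • ((fam2 k Tj l r s (ev (∂_{(bas n 1 : V)} f)) c.Q.vac : D) : Completion D) :=
    fun f hf n => by
      obtain ⟨κ, Ξ, h, h1, h2⟩ := flux hT con trc (hw.fac l) (hw.swap l) (hw.trc l) hf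
      have t0 : Tst fun x => κ x * Ξ x := Ap.cs_mul_r h.1 h.2.1
      have a := h2 0 (bas n 1) (r, s)
      rw [hL.ch l 0 (bas n 1) _ κ Ξ r s (ev f) hf.isCompact h ⟨f, rfl⟩ subset_rfl,
        Finset.sum_eq_single n (fun m _ hm => ?_) (by simp)] at a
      · rw [ct, ← Str.dvL_apply, ← map_smul, (hS.off l n (r, s)).congr (g := ST.tens
          (sch (cx fun x => κ x * Ξ x * (eta n * (bas n 1 + (0 : ℝ) • x) n))) f) fun x =>
          (nr h1 x).mono fun z hz => ?_, Str.dvL_apply, a, ← Grp.pd_ev]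
        · rw [show (fun z => ∑ i, (((bas n 1 + (0 : ℝ) • z) i : ℝ) : ℂ) * pd i (ev f) z) =
            pd n (ev f) from funext fun z => by simp [bas, apply_ite Complex.ofReal]]
          simp [Completion.coe_smul]
        · rw [SchwartzMap.smul_apply, Api4.ten2_apply, ST.tens_apply, Api4.sch_apply (dm _),
            Api4.sch_apply (Api4.dc_cx (Ap.cs_mul_r t0 (by fun_prop))), hz.1, cx]
          rcases hz.2 with b | b <;> simp [b, Str.mon, bas]
      · rw [← Str.dvL_apply, show (cx fun x => κ x * Ξ x * (eta m * (bas n 1 + (0 : ℝ) • x) m)) =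
          fun _ => 0 from funext fun x => by simp [cx, bas, hm], Api4.sch_eq (F := fun _ => 0) 0 fun _ => rfl,
          ← ST.tensL_apply, map_zero, map_zero]
  refine fun f hf => ⟨hP f hf, ?_⟩
  obtain ⟨κ, Ξ, h, h1, h2⟩ := flux hT con trc (hw.fac l) (hw.swap l) (hw.trc l) hf
  have t0 : Tst fun x => κ x * Ξ x := Ap.cs_mul_r h.1 h.2.1
  have sm : ∀ n, ContDiff ℝ ∞ fun x : V => (x n : ℂ) := fun n =>
    Complex.ofRealCLM.contDiff.comp (contDiff_apply ℝ ℝ n)
  have df : ∀ n, Dc fun x => (x n : ℂ) * f x := fun n => Api4.dc_mul_left (sm n) ⟨f.smooth ⊤, hf⟩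
  have a := h2 1 0 (r, s)
  rw [hL.ch l 1 0 _ κ Ξ r s (ev f) hf.isCompact h ⟨f, rfl⟩ subset_rfl] at a
  have b : ∀ n, dv1 (w l) n (r, s) (ST.tens
      (sch (cx fun x => κ x * Ξ x * (eta n * ((0 : V) + (1 : ℝ) • x) n))) f) =
      (eta n : ℂ) • ct w χ n r s ![n] l f +
        (eta n : ℂ) • ct w χ n r s ![] l (sch fun x => (x n : ℂ) * f x) := fun n => by
    rw [ct, ct, ← Str.dvL_apply, ← Str.dvL_apply, ← Str.dvL_apply, ← map_smul (Str.dvL _ _ _),
      ← map_smul (Str.dvL _ _ _), ← map_add]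
    refine (hS.off l n (r, s)).congr fun x => (nr h1 x).mono fun z hz => ?_
    rw [SchwartzMap.add_apply, SchwartzMap.smul_apply, SchwartzMap.smul_apply, Api4.ten2_apply,
      Api4.ten2_apply, ST.tens_apply, Api4.sch_apply (dm _), Api4.sch_apply (dm _),
      Api4.sch_apply (df n), Api4.sch_apply (Api4.dc_cx (Ap.cs_mul_r t0 (by
        simp only [Pi.add_apply, Pi.smul_apply, smul_eq_mul]; fun_prop))), hz.1, cx]
    rcases hz.2 with b | b
    · simp [b, Str.mon]
      ring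
    · simp [b]
  have cf : ∀ n, HasCompactSupport (sch fun x => (x n : ℂ) * f x) := fun n => by
    rw [Api4.coe_sch (df n)]
    exact (df n).2
  simp only [b, hP _ (cf _), Finset.sum_add_distrib] at a
  have d : (fun z => ∑ i, ((((0 : V) + (1 : ℝ) • z) i : ℝ) : ℂ) * pd i (ev f) z) =
      ev (∑ n, ∂_{(bas n 1 : V)} (sch fun x => (x n : ℂ) * f x) - (4 : ℂ) • f) := by
    funext z
    have e : ∀ n, (∂_{(bas n 1 : V)} (sch fun x => (x n : ℂ) * f x) : Sch) z =
        f z + z n * pd n (ev f) z := fun n => by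
      show ev _ z = _
      rw [← Grp.pd_ev, show ev (sch fun x => (x n : ℂ) * f x) = _ from Api4.coe_sch (df n),
        ← Ap.dv_bas, Ap.dv_mul ((sm n).differentiable (by simp) z) f.differentiableAt,
        show dv (bas n 1) (fun x => (x n : ℂ)) z = _ from
          Ap.dv_clm (ContinuousLinearMap.proj n) _ z, Ap.dv_bas]
      simp [bas, ev]
    show _ = (∑ n, ∂_{(bas n 1 : V)} (sch fun x => (x n : ℂ) * f x) : Sch) z - 4 * f z
    simp [SchwartzMap.sum_apply, e, Finset.sum_add_distrib]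
  rw [d, ← Grp.fC_apply (hT r s), map_sub, map_sum, map_smul] at a
  simp only [Grp.fC_apply, Completion.coe_smul, Completion.coe_add, Completion.coe_sub,
    Str.coe_sum, ← Finset.smul_sum, Complex.ofReal_one, one_smul] at a
  rw [eq_sub_of_add_eq a]
  module

end

end Vale.Agent.P352X.ZZ.SA
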