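import Vale.Agent.P352Z.SG.Lm2
import Vale.Agent.P352Z.SA.Alg
import Vale.Agent.P352Z.TPD.PL
import Vale.Agent.P352X.R.STRUCT

/-!
# P352Z, step A: definitions (helper27)
-/

set_option linter.all false

open MeasureTheory Filter Topology
open scoped SchwartzMap ComplexConjugate ContDiff

namespace Vale.Agent.P352X.ZZ.SA

open Vale.Agent.P352 Vale.Agent.P352.GF Vale.Agent.P352.BW Vale.Agent.P352.H246
open Vale.Agent.P352.H496 Vale.Agent.P352.H755 Vale.Agent.P352.H15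
open UniformSpace (Completion)
open Complex (I)

noncomputable section

variable {D : Type*} [NormedAddCommGroup D] [InnerProductSpace ℂ D]

/-- logarithmic families of conserved traceless tensors with the charges `P` and `D` -/
structure LF (Q : Theory D) (k : ℕ) (Tj : ℕ → Ix → Ix → Fld D) : Prop where
  p2 : ∀ j, P2 Q (Tj j)
  p2l : ∀ l, P2 Q (fam2 k Tj l)
  top : ∀ j m n f v, k < j → IsTest f → Tj j m n f v = 0
  conserved : ∀ j n f v, IsTest f → ∑ m, Tj j m n (pd m f) v = 0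
  trace : ∀ j f v, IsTest f → GF.tr (Tj j) f v = 0
  bian : ∀ j l m n f v, IsTest f →
    cu (Tj j) l m n f v + cu (Tj j) m n l f v + cu (Tj j) n l m f v = 0
  cov : ∀ l m n s L a f v, 0 < s → IsLor L → IsTest f → fam2 k Tj l m n f (Q.U s L a v) =
    ∑ i, ∑ j, (L i m * L j n : ℂ) •
      Q.U s L a (fam2 k Tj (l + Real.log s) i j (fun x => f (sim s L a x)) v)
  ch : ∀ (l r : ℝ) (x0 : V) (K : Set V) χ Ξ m n f, IsCompact K → Chg K χ Ξ → IsTest f →
    tsupport f ⊆ K →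
    (∑ i, ∑ j, fam2 k Tj l i j (dens χ Ξ (fun z => x0 + r • z) i j) (fam2 k Tj l m n f Q.vac)) -
      fam2 k Tj l m n f (∑ i, ∑ j, fam2 k Tj l i j (dens χ Ξ (fun z => x0 + r • z) i j) Q.vac) =
    I • (fam2 k Tj l m n (fun z => ∑ i, (((x0 + r • z) i : ℝ) : ℂ) * pd i f z) Q.vac +
      (r : ℂ) • fam2 k (fun j => Tj (j + 1)) l m n f Q.vac)

/-- time ordered products of a logarithmic family -/
structure TPL (Q : Theory D) (T : ℝ → Ix → Ix → Fld D) (K : ℕ)
    (w : ℝ → I2 → I2 → S2 →L[ℂ] Completion D) : Prop where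
  fac : ∀ l I J (f g : Sch) (F : S2), (∀ x y, F (x, y) = f x * g y) →
    Late (tsupport f) (tsupport g) →
      w l I J F = ((T l I.1 I.2 (ev f) (T l J.1 J.2 (ev g) Q.vac) : D) : Completion D)
  swap : ∀ l I J (F G : S2), (∀ x y, G (x, y) = F (y, x)) → w l I J F = w l J I G
  trc : ∀ l J, ∑ m, (eta m : ℂ) • w l (m, m) J = 0
  cov : ∀ l s L a I J (F G : S2), 0 < s → IsLor L →
    (∀ x y, G (x, y) = F (sim s L a x, sim s L a y)) → ∃ κ : ℂ, w l I J F =
      ∑ K, ∑ M, (L2 L K I * L2 L M J) • Ue Q s L a (w (l + Real.log s) K M G) + κ • om Q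
  pl : ∀ I J, PL K fun l => w l I J

/-- polynomials in the momentum -/
abbrev R := MvPolynomial Ix ℂ

/-- evaluation at the momentum `p` and at `t = l - (log p²) / 2` -/
def evl (l : ℝ) (p : V) : Polynomial R →+* ℂ :=
  Polynomial.eval₂RingHom (MvPolynomial.eval fun m => (p m : ℂ))
    ((l - Real.log (mu p) / 2 : ℝ) : ℂ)

/-- the symbol of `f ↦ ∂_r f` -/
def qq (r : Ix) : R := MvPolynomial.C (-I * eta r) * MvPolynomial.X r

/-- `P` is the symbol of the overlap of `T^{ab}` with the family `X` -/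
def Ov (c : Ctx D) (a b : Ix) (X : ℝ → Sch → Completion D) (P : Polynomial R) : Prop :=
  ∀ l (f' f : Sch), HasCompactSupport f →
    inner ℂ ((c.T a b (ev f') c.Q.vac : D) : Completion D) (X l f) =
      ∫ p in Fc, evl l p P * (conj (ft (ev f') p) * ft (ev f) p)

/-- the contact terms of the divergence -/
def ct (w : ℝ → I2 → I2 → S2 →L[ℂ] Completion D) (χ : V → ℂ) {k : ℕ} (n r s : Ix)
    (γ : Fin k → Ix) (l : ℝ) (f : Sch) : Completion D :=
  dv1 (w l) n (r, s) (Api4.ten2 (sch fun u => Str.mon γ u * χ u) f)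

/-- `o0 + o1 h + o2 h h / 2` -/
def lam {A : Type*} [CommRing A] [Algebra ℂ A] (o0 : A) (o1 : Ix → A) (o2 : Ix → Ix → A)
    (h : Ix → A) : A :=
  o0 + ∑ γ, h γ * o1 γ + (2⁻¹ : ℂ) • ∑ γ, ∑ δ, h γ * h δ * o2 γ δ

end

end Vale.Agent.P352X.ZZ.SA
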