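import Vale.Agent.P352Z.SG.Lm2
import Vale.Agent.P352Z.R.TWO.St
import Vale.Agent.P352Z.SA.Alg
import Vale.Agent.P352X.R.POLY.Alg
import Vale.Agent.P352X.R.POLY.Ex2
import Vale.Agent.P352.H246.Fldl

/-!
# P352Z, step A: separation of the logarithms, the last step (helper14)
-/

set_option linter.all false

open MeasureTheory Measure Set Filter Topology
open scoped SchwartzMap ComplexConjugate NNReal ENNReal LineDeriv

namespace Vale.Agent.P352X.ZZ.SA

open Vale.Agent.P352.GF Vale.Agent.P352.BW Vale.Agent.P352.H496 Vale.Agent.P352.H755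
open Vale.Agent.P352.H246 (box)
open UniformSpace (Completion)
open Vale.Agent.P352X.Two Vale.Agent.P352X.Poly.AlgP

noncomputable section

lemma evp_hom {q : MvPolynomial Ix ℂ} {n : ℕ} (h : q.IsHomogeneous n) (t : ℝ) (p : V) :
    evp q (t • p) = (t : ℂ) ^ n * evp q p := by
  simp only [evp, MvPolynomial.eval_eq', Finset.mul_sum]
  refine Finset.sum_congr rfl fun d hd => ?_
  have e : ∑ i, d i = n := by
    have := h (MvPolynomial.mem_support_iff.1 hd)
    rw [← Finsupp.degree_eq_sum, Finsupp.degree_eq_weight_one]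
    exact this
  simp only [Pi.smul_apply, smul_eq_mul, Complex.ofReal_mul, mul_pow, Finset.prod_mul_distrib,
    Finset.prod_pow_eq_pow_sum, e]
  ring

lemma s4 {M α : Type*} [AddCommMonoid M] [Fintype α] (F : α → α → α → α → M) :
    ∑ m, ∑ n, ∑ k, ∑ l, F m n k l = ∑ k, ∑ l, ∑ m, ∑ n, F m n k l := by
  calc _ = ∑ m, ∑ k, ∑ n, ∑ l, F m n k l := Finset.sum_congr rfl fun _ _ => Finset.sum_comm
    _ = ∑ k, ∑ m, ∑ l, ∑ n, F m n k l := Finset.sum_comm.trans (Finset.sum_congr rfl fun _ _ =>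
      Finset.sum_congr rfl fun _ _ => Finset.sum_comm)
    _ = _ := Finset.sum_congr rfl fun _ _ => Finset.sum_comm

/-- continuous densities are determined by the test functions -/
theorem van2 {F : V → ℂ} (hF : ContinuousOn F Fc)
    (h : ∀ f' f : Sch, ∫ p in Fc, F p * (conj (ft (ev f') p) * ft (ev f) p) = 0) :
    ∀ p ∈ Fc, F p = 0 := by
  have hc : ContinuousOn (fun p => F p * conj (ft g0 p)) Fc :=
    hF.mul (Complex.continuous_conj.comp (Two.cont_ft g0_in.1)).continuousOn
  have := isOpen_Fc.ae_eq_zero_of_integral_contDiff_smul_eq_zero (μ := volume)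
    (hc.locallyIntegrableOn meas_Fc) fun g h1 h2 h3 => by
      obtain ⟨_, ⟨f, rfl⟩, e⟩ := exists_ft (Ap.in_univ (Ap.dc_cx ⟨h1, h2⟩)).1
      have := h gS f
      rw [e, setIntegral_eq_integral_of_forall_compl_eq_zero fun p hp => by
        simp [cx, image_eq_zero_of_notMem_tsupport fun k => hp (h3 k)]] at this
      rw [← this]
      exact integral_congr_ae (.of_forall fun p => by
        simp only [cx, Complex.real_smul]
        rw [mul_comm, mul_assoc]
        rfl)
  intro p hp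
  exact (mul_eq_zero.1 (Measure.eqOn_open_of_ae_eq (μ := volume)
    ((ae_restrict_iff' meas_Fc).2 this) isOpen_Fc hc continuousOn_const hp)).resolve_right
    (by simpa using g0_ne p)

/-- homogeneous polynomials are determined by their values on the mass shell -/
theorem ext_shell {q q' : MvPolynomial Ix ℂ} {d : ℕ} (hq : q.IsHomogeneous d)
    (hq' : q'.IsHomogeneous d) (h : ∀ p ∈ Fc, mu p = 1 → evp q p = evp q' p) : q = q' :=
  ext_Fc fun p hp => by
    have h1 : 0 < mu p := hp.1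
    have h2 := Real.sqrt_pos.2 h1
    have := h ((Real.sqrt (mu p))⁻¹ • p) ((Fc_smul (inv_pos.2 h2)).2 hp) (by
      rw [mu_smul, inv_pow, Real.sq_sqrt h1.le, inv_mul_cancel₀ h1.ne'])
    rw [evp_hom hq, evp_hom hq'] at this
    exact mul_left_cancel₀ (pow_ne_zero _ (Complex.ofReal_ne_zero.2 (inv_pos.2 h2).ne')) this

/-- on the mass shell only the term without logarithm survives -/
theorem pw_shell {p : V} (hp : mu p = 1) {n j : ℕ} (hj : j ≤ n) (a : ℕ → ℂ) :
    ∑ m ∈ Finset.range (n + 1), (if j ≤ m then Two.pw 0 (m - j) p * a m else 0) = a j := by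
  rw [Finset.sum_eq_single j (fun m _ hm => ?_) fun h => absurd (Finset.mem_range.2 (by omega)) h]
  · simp [Two.pw]
  · split_ifs with h
    · simp [Two.pw, hp, show m - j ≠ 0 by omega]
    · rfl

lemma cont_pw (l : ℝ) (i : ℕ) : ContinuousOn (Two.pw l i) Fc :=
  Complex.continuous_ofReal.comp_continuousOn (((continuousOn_const.sub
    ((cont_mu.continuousOn.log fun p hp => ne_of_gt hp.1).div_const 2)).pow i).div_const _)

lemma cont_evp (q : MvPolynomial Ix ℂ) : Continuous (evp q) :=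
  (MvPolynomial.continuous_eval q).comp (by fun_prop)

/-- null vectors -/
def nv (x y : ℝ) : V := ![1 + (x ^ 2 + y ^ 2), 1 - (x ^ 2 + y ^ 2), 2 * x, 2 * y]

lemma ex_nv (x y : ℝ) : ∃ L, IsLor L ∧ sim 1 L 0 va = nv x y := by
  refine ⟨P352.H746.nrt vb (tv ![x, y]), P352.H746.isLor_nrt null_vb (al_tv _), ?_⟩
  rw [P352.H746.sim_nrt, md_tv, md_tv, md_vb, Grp.al_va]
  ext m
  fin_cases m <;> simp [nv, va, vb, tv, pt, d2] <;> ring

/-- a traceless form that vanishes on the null vectors is antisymmetric -/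
lemma nullq (z : Ix → Ix → ℂ) (ht : ∑ m, (eta m : ℂ) * z m m = 0)
    (h : ∀ x y : ℝ, ∑ m, ∑ k, ((eta m * nv x y m * (eta k * nv x y k) : ℝ) : ℂ) * z m k = 0)
    (m k : Ix) : z m k + z k m = 0 := by
  have e0 := h 0 0
  have e1 := h 1 0
  have e2 := h (-1) 0
  have e3 := h 0 1
  have e4 := h 0 (-1)
  have e5 := h 1 1
  have e6 := h 1 (-1)
  have e7 := h (-1) 1
  have e8 := h (-1) (-1)
  simp [Fin.sum_univ_four, eta, o, nv] at ht e0 e1 e2 e3 e4 e5 e6 e7 e8
  have a0 : z 0 0 + z 0 0 = 0 := by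
    linear_combination (3 / 8 : ℂ) * e0 + (1 / 32 : ℂ) * (e5 + e6 + e7 + e8) + (1 / 2 : ℂ) * ht
  have a1 : z 0 1 + z 1 0 = 0 := by
    linear_combination (-1 / 4 : ℂ) * e0 - (1 / 8 : ℂ) * (e1 + e2 + e3 + e4) +
      (1 / 16 : ℂ) * (e5 + e6 + e7 + e8)
  have a2 : z 0 2 + z 2 0 = 0 := by linear_combination (1 / 8 : ℂ) * (e2 - e1)
  have a3 : z 0 3 + z 3 0 = 0 := by linear_combination (1 / 8 : ℂ) * (e4 - e3)
  have a4 : z 1 1 + z 1 1 = 0 := by
    linear_combination (9 / 8 : ℂ) * e0 - (1 / 4 : ℂ) * (e1 + e2 + e3 + e4) +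
      (3 / 32 : ℂ) * (e5 + e6 + e7 + e8) - (1 / 2 : ℂ) * ht
  have a5 : z 1 2 + z 2 1 = 0 := by
    linear_combination (3 / 8 : ℂ) * (e1 - e2) + (1 / 8 : ℂ) * (e7 + e8 - e5 - e6)
  have a6 : z 1 3 + z 3 1 = 0 := by
    linear_combination (3 / 8 : ℂ) * (e3 - e4) + (1 / 8 : ℂ) * (e6 + e8 - e5 - e7)
  have a7 : z 2 2 + z 2 2 = 0 := by
    linear_combination (-3 / 8 : ℂ) * e0 + (1 / 4 : ℂ) * (e1 + e2) -
      (1 / 32 : ℂ) * (e5 + e6 + e7 + e8) - (1 / 2 : ℂ) * ht
  have a8 : z 2 3 + z 3 2 = 0 := by linear_combination (1 / 16 : ℂ) * (e5 + e8 - e6 - e7)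
  have a9 : z 3 3 + z 3 3 = 0 := by
    linear_combination (-3 / 8 : ℂ) * e0 + (1 / 4 : ℂ) * (e3 + e4) -
      (1 / 32 : ℂ) * (e5 + e6 + e7 + e8) - (1 / 2 : ℂ) * ht
  fin_cases m <;> fin_cases k <;> first | assumption | (rw [add_comm]; assumption)

/-- invariant polynomials of highest weight that vanish on the cone -/
lemma top_zero {P : V → ℂ} (hc : Continuous P) (h0 : ∀ p, mu p = 0 → P p = 0)
    (h1 : ∀ w p, P (gap w p) = P p) (h2 : ∀ r p, 0 < r → P (scp r 1 p) = P p) {p : V}
    (hp : p ∈ Fc) : P p = 0 := by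
  have b := ((mem_Fc p).1 hp).1
  set q := gap (-(be p)⁻¹ • tx p) p
  have e : tx q = 0 := by simp [q, gap, smul_smul, b.ne']
  have t : Tendsto (fun r : ℝ => P (pt (r * al q) (be q) 0)) (𝓝[>] 0) (𝓝 (P (pt (0 * al q) (be q) 0))) :=
    ((hc.comp (by unfold pt; fun_prop : Continuous fun r : ℝ => pt (r * al q) (be q) 0)).tendsto
      0).mono_left nhdsWithin_le_nhds
  rw [h0 _ (by simp [mu_pt])] at t
  rw [← h1 (-(be p)⁻¹ • tx p) p]
  refine tendsto_nhds_unique (tendsto_const_nhds.congr' ?_) t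
  filter_upwards [self_mem_nhdsWithin] with r hr
  rw [← h2 r _ hr, scp, e, smul_zero, one_mul]

variable {D : Type*} [NormedAddCommGroup D] [InnerProductSpace ℂ D] {c : Ctx D}

/-- the vacuum separates the hermitian Bose fields -/
theorem bose_zero {Q : Theory D} {B : Fld D} (hB : Q.bose B)
    (herm : ∀ f v w, IsTest f → inner ℂ (B f v) w = inner ℂ v (B (bar f) w))
    (h : ∀ f, IsTest f → B f Q.vac = 0) (f : Fn) (v : D) (hf : IsTest f) : B f v = 0 := by
  obtain ⟨F, rfl⟩ := P352.exists_fl hf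
  exact P352.H246.van (Q := Q) (B := fun f v => B (P352.fl f) v)
    (B' := fun f v => B (P352.fl f) v)
    (fun f v w => by rw [herm _ _ _ (P352.isTest_fl f), P352.bar_fl])
    (fun f a X X' hf hX => P352.H246.bose_comm hB
      (fun G hG => P352.H246.wed_sep (P352.H246.isLor_Rt 0 0) a hf hG) hX _)
    (fun f _ => h _ (P352.isTest_fl f)) (P352.fld_cont (Q.bose_fld _ hB)) F v

theorem P2.zero {Q : Theory D} {T : Ix → Ix → Fld D} (hT : P2 Q T)
    (h : ∀ m n f, IsTest f → T m n f Q.vac = 0) (m n : Ix) (f : Fn) (v : D) (hf : IsTest f) :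
    T m n f v = 0 := bose_zero (hT.bose m n) (hT.herm m n) (h m n) f v hf

/-- if the component `T_aa` annihilates the vacuum, then `T` vanishes -/
theorem zero_of_aa (hc : CT c.Q c.T)
    (h : ∀ f : Sch, ∑ J, (sy ![va, va] J : ℂ) • c.hT.lv J f = 0) (m n : Ix) (f : Fn) (v : D)
    (hf : IsTest f) : c.T m n f v = 0 := by
  have hM := Two.mu_of c.hT hc.cov
  have h1 : ∀ x y (f : Sch), ∑ J, (sy ![nv x y, nv x y] J : ℂ) • c.hT.lv J f = 0 := fun x y f => by
    obtain ⟨L, hL, e⟩ := ex_nv x y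
    have e1 := fun ν => sy_cov hL (fun _ => 1) ![va, va] ν
    rw [show (fun j : Fin 2 => (1 : ℝ) • sim 1 L 0 (![va, va] j)) = ![nv x y, nv x y] from
      funext fun j => by fin_cases j <;> simp [e]] at e1
    simp only [hM _ 1 L 0 f _ one_pos hL (Grp.simS_apply one_pos hL 0 f), Finset.smul_sum,
      smul_smul]
    rw [Finset.sum_comm, ← map_zero (Ug c.Q 1 L 0), ← h (Grp.simS one_pos hL 0 f), _root_.map_sum]
    refine Finset.sum_congr rfl fun ν _ => ?_
    rw [← Finset.sum_smul, map_smul]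
    congr 1
    have := e1 ν
    rw [Finset.prod_const_one, one_mul] at this
    rw [← this]
    push_cast
    exact Finset.sum_congr rfl fun μ _ => by simp [mul_comm]
  have h2 : ∀ m n g, IsTest g → c.T m n g c.Q.vac = -c.T n m g c.Q.vac := by
    rintro m n _ ⟨g, rfl⟩
    refine eq_neg_of_add_eq_zero_left (ext_inner_left ℂ fun w => ?_)
    rw [inner_add_right, inner_zero_right]
    refine nullq (fun m n => inner ℂ w (c.T m n (ev g) c.Q.vac)) ?_ (fun x y => ?_) m n
    · have := congrArg (inner ℂ w) (hc.trace _ c.Q.vac ⟨g, rfl⟩)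
      simpa only [P352.GF.tr, inner_sum, inner_smul_right, inner_zero_right] using this
    · have := congrArg (inner ℂ (w : Completion D)) (h1 x y g)
      simpa only [sum2, inner_sum, inner_smul_right, inner_zero_right, P2.lv_apply,
        Completion.inner_coe, sy, Fin.prod_univ_two, Matrix.cons_val_zero, Matrix.cons_val_one,
        Matrix.cons_val_fin_one] using this
  have pc : ∀ m l g, IsTest g → pd m (pd l g) = pd l (pd m g) := fun m l g hg => by
    simp only [← Ap.dv_bas]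
    exact funext (Ap.dv_comm (test_smooth hg) _ _)
  have h3 : ∀ m n g, IsTest g → c.T m n (box g) c.Q.vac = 0 := fun m n g hg => by
    have t := fun l => Ap.test_pd l hg
    have b : ∀ l, (eta l : ℂ) • c.T m n (pd l (pd l g)) c.Q.vac =
        (eta m : ℂ) • c.T l n (pd l (pd m g)) c.Q.vac -
          (eta n : ℂ) • c.T l m (pd l (pd n g)) c.Q.vac := fun l => by
      have := hc.bian l m n _ c.Q.vac (t l)
      rw [cu, cu, cu, h2 n m _ (Ap.test_pd l (t l)), h2 n l _ (Ap.test_pd m (t l)),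
        h2 m l _ (Ap.test_pd n (t l)), pc m l g hg, pc n l g hg] at this
      linear_combination (norm := module) (1 / 2 : ℂ) • this
    refine (Grp.fld_sum (c.hT.fld m n) Finset.univ (fun l => (eta l : ℂ))
      (fun l => Ap.test_pd l (t l)) c.Q.vac).trans ?_
    rw [Finset.sum_congr rfl fun l _ => b l, Finset.sum_sub_distrib, ← Finset.smul_sum,
      ← Finset.smul_sum, hc.conserved n _ _ (t m), hc.conserved m _ _ (t n), smul_zero, smul_zero,
      sub_zero]
  refine P2.zero c.hT (fun m n f ⟨g, hg⟩ => ?_) m n f v hf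
  have := Two.Tr.box_zero (c := c) (X := c.hT.lv ![m, n]) (fun y f => hM.tr _ y f)
    (hM.ae (Two.pp2 c.hT) (by norm_num) _ _) fun g hg => by
      rw [P2.lv_apply, hg]
      exact (congrArg _ (h3 m n _ g0_in.1)).trans Completion.coe_zero
  have e := congrArg (fun X : Sch →L[ℂ] Completion D => X g) this
  subst hg
  exact Completion.coe_injective D (e.trans Completion.coe_zero.symm)

/-- **the last step**: if the two point function of `T` vanishes on the cone, then `T` vanishes -/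
theorem fin_zero (hc : CT c.Q c.T) (π : Ix → Ix → (Fin 2 → Ix) → MvPolynomial Ix ℂ)
    (hπ : ∀ r s μ (f' f : Sch),
      inner ℂ ((c.T r s (ev f') c.Q.vac : D) : Completion D) (c.hT.lv μ f) =
        ∫ p in Fc, evp (π r s μ) p * (conj (ft (ev f') p) * ft (ev f) p))
    (hom : ∀ r s μ, (π r s μ).IsHomogeneous 4)
    (cov : ∀ r s μ L p, IsLor L → evp (π r s μ) (sim 1 L 0 p) = ∑ k, ∑ l, ∑ ν : Fin 2 → Ix,
      ((L k r * L l s * ∏ i, L (ν i) (μ i) : ℝ) : ℂ) * evp (π k l ν) p)
    (hd : ∀ r s μ, mup ∣ π r s μ) (m n : Ix) (f : Fn) (v : D) (hf : IsTest f) :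
    c.T m n f v = 0 := by
  set P : V → ℂ := fun p => ∑ J : Fin 2 → Ix, ∑ μ : Fin 2 → Ix,
    (sy ![va, va] J : ℂ) * (sy ![va, va] μ : ℂ) * evp (π (J 0) (J 1) μ) p with hP
  have k1 : ∀ L (t : ℝ) p, IsLor L → t • sim 1 L 0 va = va → P (sim 1 L 0 p) = t ^ 4 * P p :=
    fun L t p hL e => by
      have e1 := fun ν => sy_cov hL (fun _ => t) ![va, va] ν
      rw [show (fun j : Fin 2 => t • sim 1 L 0 (![va, va] j)) = ![va, va] from
        funext fun j => by fin_cases j <;> simp [e]] at e1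
      have e2 : ∀ ν, (sy ![va, va] ν : ℂ) * t ^ 2 = ∑ μ : Fin 2 → Ix,
          ((∏ i, L (ν i) (μ i) : ℝ) : ℂ) * sy ![va, va] μ := fun ν => by
        rw [← Complex.ofReal_pow, ← Complex.ofReal_mul, mul_comm, sq, ← Fin.prod_univ_two
          (fun _ => t), ← e1, Complex.ofReal_sum]
        simp only [Complex.ofReal_mul]
      have e3 : ∀ J μ : Fin 2 → Ix, evp (π (J 0) (J 1) μ) (sim 1 L 0 p) = ∑ K : Fin 2 → Ix,
          ∑ ν : Fin 2 → Ix, ((∏ i, L (K i) (J i) : ℝ) : ℂ) * ((∏ i, L (ν i) (μ i) : ℝ) : ℂ) *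
            evp (π (K 0) (K 1) ν) p := fun J μ => by
        rw [cov _ _ _ L p hL, sum2]
        simp only [Fin.prod_univ_two, Matrix.cons_val_zero, Matrix.cons_val_one,
          Matrix.cons_val_fin_one, Complex.ofReal_mul]
      calc _ = ∑ K : Fin 2 → Ix, ∑ ν : Fin 2 → Ix, ((sy ![va, va] K : ℂ) * t ^ 2) *
            ((sy ![va, va] ν : ℂ) * t ^ 2) * evp (π (K 0) (K 1) ν) p := by
            simp only [hP, e3, Finset.mul_sum]
            rw [s4]
            refine Finset.sum_congr rfl fun K _ => Finset.sum_congr rfl fun ν _ => ?_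
            rw [e2, e2, Finset.sum_mul_sum, Finset.sum_mul]
            refine Finset.sum_congr rfl fun J _ => ?_
            rw [Finset.sum_mul]
            exact Finset.sum_congr rfl fun μ _ => by ring
        _ = _ := by
            simp only [hP, Finset.mul_sum]
            exact Finset.sum_congr rfl fun _ _ => Finset.sum_congr rfl fun _ _ => by ring
  have k2 : ∀ p ∈ Fc, P p = 0 := fun p hp => top_zero (P := P)
    (continuous_finset_sum _ fun J _ => continuous_finset_sum _ fun μ _ =>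
      continuous_const.mul (cont_evp _))
    (fun p hp => Finset.sum_eq_zero fun J _ => Finset.sum_eq_zero fun μ _ => by
      obtain ⟨q, e⟩ := hd (J 0) (J 1) μ
      rw [e, evp, map_mul, ← evp, evp_mup, hp]
      simp)
    (fun w p => by
      obtain ⟨l1, l2⟩ := Grp.lga w
      have : gap w va = va := null_ext (by simp [gap]) (by simp [gap]) (by simp [gap])
      rw [← l2, k1 _ 1 p l1 (by rw [l2, one_smul, this])]
      simp)
    (fun r p hr => by
      obtain ⟨l1, l2⟩ := Grp.lsc hr one_pos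
      have h0 := Real.sqrt_pos.2 hr
      have e : ∀ p, P (Real.sqrt r • p) = (Real.sqrt r : ℂ) ^ 4 * P p := fun p => by
        simp only [hP, evp_hom (hom _ _ _), Finset.mul_sum]
        exact Finset.sum_congr rfl fun _ _ => Finset.sum_congr rfl fun _ _ => by ring
      simp only [mul_one] at l2
      rw [← l2, sim_smul, e, k1 _ (Real.sqrt r)⁻¹ p l1 ?_, ← mul_assoc, ← mul_pow,
        ← Complex.ofReal_mul, mul_inv_cancel₀ h0.ne']
      · simp
      · have := l2 va
        rw [sim_smul, show scp r 1 va = r • va from null_ext (by simp [scp]) (by simp [scp])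
          (by simp [scp])] at this
        rw [(eq_inv_smul_iff₀ h0.ne').2 this, smul_smul, smul_smul, ← mul_inv,
          Real.mul_self_sqrt hr.le, inv_mul_cancel₀ hr.ne', one_smul]) hp
  refine zero_of_aa hc (fun g => (inner_self_eq_zero (𝕜 := ℂ)).1 ?_) m n f v hf
  have i := fun (J μ : Fin 2 → Ix) => ((Poly.int_q (π (J 0) (J 1) μ) ⟨g, rfl⟩ ⟨g, rfl⟩).const_mul
    (sy ![va, va] μ : ℂ)).const_mul (sy ![va, va] J : ℂ)
  rw [← setIntegral_eq_zero_of_forall_eq_zero (μ := volume) (t := Fc)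
    (f := fun p => P p * (conj (ft (ev g) p) * ft (ev g) p)) fun p hp => by rw [k2 p hp, zero_mul]]
  simp only [hP, Finset.sum_mul, mul_assoc]
  rw [integral_finset_sum _ fun J _ => integrable_finset_sum _ fun μ _ => i J μ, sum_inner]
  refine Finset.sum_congr rfl fun J _ => ?_
  rw [integral_finset_sum _ fun μ _ => i J μ, inner_smul_left, inner_sum, Finset.mul_sum]
  refine Finset.sum_congr rfl fun μ _ => ?_
  rw [integral_const_mul, integral_const_mul, inner_smul_right, Complex.conj_ofReal,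
    ← hπ, P2.lv_apply]

end

end Vale.Agent.P352X.ZZ.SA
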