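import Vale.Agent.P352X.R.POLY.Cov
import Vale.Agent.P352X.R.POLY.Ex2
import Vale.Agent.P352X.R.POLY.Par
import Vale.Agent.P352Z.SG.Gen

/-!
# P352Z: densities of overlaps of covariant multiplets (helper40, after helper21, 76, 80)
-/

set_option linter.all false

open MeasureTheory Measure Set Filter Topology
open scoped SchwartzMap ComplexConjugate NNReal ENNReal

namespace Vale.Agent.P352X.ZZ.Pl

open Vale.Agent.P352.GF Vale.Agent.P352.BW Vale.Agent.P352.H496 Vale.Agent.P352.H755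
open UniformSpace (Completion)
open Vale.Agent.P352X.Two hiding Mu Zf Zs Vc Phi_W ug_ut overlap expand
open Vale.Agent.P352X.Poly hiding Den cov par all_bd zf_rL
open Vale.Agent.P352X.ZZ.Two

noncomputable section

variable {D : Type*} [NormedAddCommGroup D] [InnerProductSpace ℂ D] {c : Ctx D}
  {k l : ℕ} {d d' : ℝ} {Λ : (Fin k → Ix) → Sch →L[ℂ] Completion D}
  {Λ' : (Fin l → Ix) → Sch →L[ℂ] Completion D} {K : V → ℂ}

/-- `|ft g0| ^ 2 F` is the density of the overlap of `v` and `w` in the open cone -/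
def Den (c : Ctx D) (v w : Completion D) (F : V → ℂ) : Prop := ∀ G, Cp Fc G →
  inner ℂ v (c.bt.Phi G w) = ∫ p in Fc, G p * (conj (ft g0 p) * ft g0 p * F p)

/-- linear relations pass to the densities -/
theorem lin {v : Ix → Completion D} {w : Completion D} {F : Ix → V → ℂ} {a : Ix → V → ℝ}
    (e : ∀ m, Continuous fun p => (a m p : ℂ))
    (h0 : ∀ G, Cp Fc G → ∑ m, c.bt.Phi (fun p => G p * a m p) (v m) = 0)
    (h : ∀ m, Den c (v m) w (F m)) (hc : ∀ m, ContinuousOn (F m) Fc) {p : V} (hp : p ∈ Fc) :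
    ∑ m, (a m p : ℂ) * F m p = 0 := by
  have b : ∀ m, ContinuousOn (fun p => conj (ft g0 p) * ft g0 p * F m p) Fc :=
    fun m => cont_gg.continuousOn.mul (hc m)
  have := van (H := fun p => ∑ m, (a m p : ℂ) * (conj (ft g0 p) * ft g0 p * F m p))
    (continuousOn_finset_sum _ fun m _ => (e m).continuousOn.mul (b m))
    (fun G hG => by
      have k : ∀ m, Cp Fc fun p => G p * (a m p : ℂ) :=
        fun m => hG.mul (e m).measurable (e m).continuousOn
      simp only [Finset.mul_sum, fun p m x => (mul_assoc (G p) (a m p : ℂ) x).symm]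
      rw [integral_finset_sum _ fun m _ => cp_int (k m) (b m)]
      simp only [← h _ _ (k _), c.bt.adj' (k _).1, map_mul, Complex.conj_ofReal, ← sum_inner,
        h0 _ (cp_cj hG), inner_zero_left]) p hp
  refine mul_left_cancel₀ (gg_ne p) ?_
  rw [mul_zero, ← this, Finset.mul_sum]
  exact Finset.sum_congr rfl fun m _ => mul_left_comm _ _ _

/-- covariance of the densities -/
theorem cov {F : (Fin k → Ix) → (Fin l → Ix) → V → ℂ} (h : Mu c d Λ) (h' : Mu c d' Λ')
    (hF : ∀ J μ, Den c (Λ J gS) (Λ' μ gS) (F J μ)) (hc : ∀ J μ, ContinuousOn (F J μ) Fc)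
    (J : Fin k → Ix) (μ : Fin l → Ix) {t : ℝ} {L : Ix → V} {p : V} (ht : 0 < t) (hL : IsLor L)
    (hp : p ∈ Fc) : F J μ (sim t L 0 p) = ((t ^ (d + d' - 4) : ℝ) : ℂ) *
      ∑ J' : Fin k → Ix, ∑ ν : Fin l → Ix,
        (((∏ i, L (J' i) (J i)) * ∏ i, L (ν i) (μ i) : ℝ) : ℂ) * F J' ν p := by
  have hs := inv_pos.2 ht
  have hk := Kin.du_meas t⁻¹ L
  have hA := Kin.du_pair t⁻¹ hL
  have h1 : ∀ p, Kin.du t⁻¹ L (sim t L 0 p) = p := fun p => by
    rw [Kin.du, sim_smul (s := t), (conf_lor (P352.H246.isLor_linv hL)).lin.map_smul, linv_sim _ hL,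
      inv_smul_smul₀ ht.ne']
  have h2 : ∀ p, sim t L 0 (Kin.du t⁻¹ L p) = p := fun p => by
    obtain ⟨q, rfl⟩ := (conf_sim ht hL).cle.surjective p
    rw [Conf.cle_apply, h1]
  have cs := (conf_sim ht hL).cont
  have ms : MapsTo (sim t L 0) Fc Fc := fun q hq => (Fc_sim ht hL q).2 hq
  have b := wt_g0.bd
  set a : (Fin k → Ix) → (Fin l → Ix) → ℂ := fun J' ν =>
    ((t⁻¹ ^ (-d) * ∏ i, L (J' i) (J i) : ℝ) : ℂ) * ((t⁻¹ ^ (-d') * ∏ i, L (ν i) (μ i) : ℝ) : ℂ)
  have g2 : Continuous fun p => conj (ft g0 (sim t L 0 p)) * ft g0 (sim t L 0 p) :=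
    cont_gg.comp cs
  have g1 := g2.continuousOn (s := Fc)
  have c1 : ContinuousOn (fun p => t ^ 4 • (conj (ft g0 p) * ft g0 p * (conj (ft g0 (sim t L 0 p)) *
      ft g0 (sim t L 0 p) * F J μ (sim t L 0 p)))) Fc :=
    (cont_gg.continuousOn.mul (g1.mul ((hc J μ).comp cs.continuousOn ms))).const_smul (t ^ 4)
  have c2 : ∀ J' ν, ContinuousOn (fun p => conj (ft g0 p) * ft g0 p * F J' ν p) Fc :=
    fun J' ν => cont_gg.continuousOn.mul (hc J' ν)
  have c3 : ContinuousOn (fun p => conj (ft g0 (sim t L 0 p)) * ft g0 (sim t L 0 p) *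
      ∑ J', ∑ ν, a J' ν * (conj (ft g0 p) * ft g0 p * F J' ν p)) Fc :=
    g1.mul (continuousOn_finset_sum Finset.univ fun J' _ =>
      continuousOn_finset_sum Finset.univ fun ν _ => (continuousOn_const (c := a J' ν)).mul
        (c2 J' ν))
  have := van (c1.fun_sub c3) (fun G hG => ?_) p hp
  · simp only [sub_eq_zero, Complex.real_smul] at this
    refine mul_left_cancel₀ (mul_ne_zero (Complex.ofReal_ne_zero.2 (pow_pos ht 4).ne')
      (mul_ne_zero (gg_ne p) (gg_ne (sim t L 0 p)))) ?_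
    rw [mul_assoc, mul_assoc _ _ (F _ _ _), this]
    simp only [Finset.mul_sum]
    refine Finset.sum_congr rfl fun J' _ => Finset.sum_congr rfl fun ν _ => ?_
    have e : t⁻¹ ^ (-d) * t⁻¹ ^ (-d') = t ^ 4 * t ^ (d + d' - 4) := by
      rw [Real.inv_rpow ht.le, Real.inv_rpow ht.le, Real.rpow_neg ht.le, Real.rpow_neg ht.le,
        inv_inv, inv_inv, ← Real.rpow_add ht, ← Real.rpow_natCast, ← Real.rpow_add ht]
      congr 1
      push_cast
      ring
    have e' := congrArg (fun x : ℝ => (x : ℂ)) e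
    simp only [a]
    push_cast at e' ⊢
    linear_combination (conj (ft g0 (sim t L 0 p)) * ft g0 (sim t L 0 p) *
      (conj (ft g0 p) * ft g0 p) * F J' ν p * (∏ i, (L (J' i) (J i) : ℂ)) *
        ∏ i, (L (ν i) (μ i) : ℂ)) * e'
  · have k1 : Cp Fc fun q => G (Kin.du t⁻¹ L q) := ⟨hG.1.comp hk, hG.2.elim fun B hB =>
      ⟨_, hB.1.image cs, image_subset_iff.2 fun q hq => ms (hB.2.1 hq), fun q hq =>
        hB.2.2 _ fun e => hq ⟨_, e, h2 q⟩⟩⟩
    have k2 : Cp Fc fun q => G (Kin.du t⁻¹ L q) *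
        (conj (ft g0 (Kin.du t⁻¹ L q)) * ft g0 (Kin.du t⁻¹ L q)) :=
      k1.mul (cont_gg.measurable.comp hk) (cont_gg.comp (Kin.du_cont _ _)).continuousOn
    have k3 : Cp Fc fun p => G p * (conj (ft g0 (sim t L 0 p)) * ft g0 (sim t L 0 p)) :=
      hG.mul g2.measurable g1
    have A1 := hF J μ _ k2
    have A2 : inner ℂ (Λ J gS) (c.bt.Phi (fun q => G (Kin.du t⁻¹ L q) *
        (conj (ft g0 (Kin.du t⁻¹ L q)) * ft g0 (Kin.du t⁻¹ L q))) (Λ' μ gS)) =
        ∑ J', ∑ ν, a J' ν * inner ℂ (Λ J' gS) (c.bt.Phi (fun p => G p *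
          (conj (ft g0 (sim t L 0 p)) * ft g0 (sim t L 0 p))) (Λ' ν gS)) := by
      simp only [mul_left_comm (G (Kin.du t⁻¹ L _))]
      rw [c.bt.mul_apply (b.comp hk).cj (k1.1.mul (b.comp hk)), ← c.bt.adj (b.comp hk),
        c.bt.mul_apply k1.1 (b.comp hk), h.key hs hL hk hA h1 h2, h'.key hs hL hk hA h1 h2]
      simp only [_root_.map_sum, map_smul, sum_inner, inner_sum, inner_smul_left, inner_smul_right,
        Complex.conj_ofReal, Finset.mul_sum]
      rw [Finset.sum_comm]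
      refine Finset.sum_congr rfl fun J' _ => Finset.sum_congr rfl fun ν _ => ?_
      rw [← inner_unitary (Grp.uni c.bR t⁻¹ L 0) (Λ J' gS), Phi_W hk (ug_ut hs hL) hA k3.1,
        c.bt.adj b, ← c.bt.mul_apply k1.1 b, ← c.bt.mul_apply b.cj (k1.1.mul b)]
      simp only [h2, a, mul_left_comm (G (Kin.du t⁻¹ L _))]
      ring
    rw [A2, (scF_sim ht hL).integral', inv_inv] at A1
    simp only [h1, hF _ _ _ k3] at A1
    simp only [mul_sub]
    have i2 : ∀ J' ν, IntegrableOn (fun p => a J' ν * (G p * (conj (ft g0 (sim t L 0 p)) *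
        ft g0 (sim t L 0 p)) * (conj (ft g0 p) * ft g0 p * F J' ν p))) Fc :=
      fun J' ν => (cp_int k3 (c2 J' ν)).const_mul _
    rw [integral_sub (cp_int hG c1) (cp_int hG c3), sub_eq_zero]
    simp only [← integral_const_mul, ← integral_smul] at A1
    simp only [← integral_finset_sum _ fun ν _ => i2 _ ν] at A1
    rw [← integral_finset_sum _ fun J' _ => integrable_finset_sum _ fun ν _ => i2 J' ν] at A1
    refine (integral_congr_ae (.of_forall fun q => ?_)).trans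
      (A1.symm.trans (integral_congr_ae (.of_forall fun q => ?_)))
    · simp only [Complex.real_smul]
      ring
    · simp only [Finset.mul_sum]
      exact Finset.sum_congr rfl fun _ _ => Finset.sum_congr rfl fun _ _ => by ring

/-- from compactly supported functions to bounded functions -/
lemma all_bd {v w : Completion D} {F : V → ℂ} (hF : IntegrableOn F Fc)
    (h : ∀ G, Cp Fc G → inner ℂ v (c.bt.Phi G w) = ∫ p in Fc, G p * F p)
    (h1 : ∀ᵐ p ∂c.nu v, p ∈ Fc) {G : V → ℂ} (hG : SN.Bd G) :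
    inner ℂ v (c.bt.Phi G w) = ∫ p in Fc, G p * F p := by
  obtain ⟨C, hC0, hC⟩ := hG.nonneg_bound
  let A : ℕ → Set V := fun n => {p | 1 / ((n : ℝ) + 1) ≤ rc p}
  have hc : ∀ n, IsCompact (A n) := fun n => Metric.isCompact_of_isClosed_isBounded
    (isClosed_le continuous_const cont_rc) ((Metric.isBounded_closedBall (x := 0) (r := n)).subset
      fun p hp => mem_closedBall_zero_iff.2 (by
        have := (inv_le_inv₀ (by positivity) (by positivity)).1
          (((one_div _).symm.trans_le hp).trans (rc_le p))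
        linarith))
  have hA := fun n => (hc n).measurableSet
  have e : ∀ n, inner ℂ (c.bt.Phi (fun p => conj ((A n).indicator G p)) v) w =
      ∫ p in Fc, (A n).indicator G p * F p := fun n => by
    rw [← h _ (cp_ind (hc n) (fun p hp => rc_pos.1 (lt_of_lt_of_le Nat.one_div_pos_of_nat hp)) hG),
      c.bt.adj' (hG.indicator (hA n))]
  have lim : ∀ p ∈ Fc, Tendsto (fun n => (A n).indicator G p) atTop (𝓝 (G p)) := fun p hp =>
    tendsto_const_nhds.congr' (((tendsto_one_div_add_atTop_nhds_zero_nat (𝕜 := ℝ)).eventually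
      (eventually_le_nhds (rc_pos.2 hp))).mono fun n hn =>
        (indicator_of_mem (show p ∈ A n from hn) G).symm)
  have bd : ∀ n p, ‖(A n).indicator G p‖ ≤ C := fun n p =>
    (norm_indicator_le_norm_self _ _).trans (hC p)
  have t1 := (c.bt.tendsto_Phi (fun n => (hG.indicator (hA n)).cj) hG.cj (K := C) (v := v)
    (.of_forall fun n => .of_forall fun p => by simpa using bd n p)
    (h1.mono fun p hp => (Complex.continuous_conj.tendsto _).comp (lim p hp))).inner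
    (𝕜 := ℂ) (tendsto_const_nhds (x := w))
  have t2 := tendsto_integral_of_dominated_convergence (μ := volume.restrict Fc)
    (F := fun n p => (A n).indicator G p * F p) (f := fun p => G p * F p) (fun p => C * ‖F p‖)
    (fun n => (hG.indicator (hA n)).1.aestronglyMeasurable.mul hF.1) (hF.norm.const_mul C)
    (fun n => .of_forall fun p => by rw [norm_mul]; gcongr; exact bd n p)
    ((ae_fc _).mono fun p hp => (lim p hp).mul_const _)
  rw [c.bt.adj' hG]
  exact tendsto_nhds_unique t1 (by simpa only [e] using t2)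

lemma zf_rL (h : Mu c d Λ) (hK : Ad k K) (A : Fin k → Fin 4) :
    c.bt.Phi (fun p => K (sim 1 rL 0 p) * ft g0 (sim 1 rL 0 p)) (Zf c Λ K A) = ((-1) ^ nU A : ℂ) •
      Ug c.Q 1 rL 0 (c.bt.Phi (fun p => K (sim 1 rL 0 p) * ft g0 (sim 1 rL 0 p)) (Zf c Λ K A)) := by
  have := h.zs_cov one_pos isLor_rL meas_rL md_rL rL_rL rL_rL (u := fun j => fr (A j))
    (t := fun j => sg (A j)) (fun j p => fr_rL (A j) p) hK.wt.bd (hK.ok A)
  rw [Phi_W meas_rL (ug_ut one_pos isLor_rL) md_rL ((hK.wt.bd.mul wt_g0.bd).comp meas_rL)]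
  simp only [rL_rL]
  rw [ZZ.Two.Zf, this, prod_sg]
  simp

/-- **the parity rule** -/
theorem par {A : Fin k → Fin 4} {C : Fin l → Fin 4} {κ : ℂ} {a b : ℝ} (h : Mu c d Λ)
    (h' : Mu c d' Λ') (hK : Ad k K) (hK' : Ad l K)
    (hi : IntegrableOn (fun p => κ * dn (fun p => K p * ft g0 p) a b p) Fc)
    (e : ∀ G, SN.Bd G → inner ℂ (Zf c Λ K A) (c.bt.Phi G (Zf c Λ' K C)) =
      ∫ p in Fc, G p * (κ * dn (fun p => K p * ft g0 p) a b p)) (hκ : κ ≠ 0) :
    Even (nU A + nU C) := by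
  have b1 : SN.Bd fun p => K (sim 1 rL 0 p) * ft g0 (sim 1 rL 0 p) :=
    (hK.wt.bd.mul wt_g0.bd).comp meas_rL
  set F : V → ℂ := fun p => K (sim 1 rL 0 p) * ft g0 (sim 1 rL 0 p) with hF
  have n1 : ∀ p, F p ≠ 0 := fun p => mul_ne_zero (hK.wt.ne _) (g0_ne _)
  have e1 : inner ℂ (c.bt.Phi F (Zf c Λ K A)) (c.bt.Phi F (Zf c Λ' K C)) =
      (-1) ^ (nU A + nU C) * inner ℂ (c.bt.Phi F (Zf c Λ K A)) (c.bt.Phi F (Zf c Λ' K C)) := by
    conv_lhs => rw [hF, zf_rL h hK A, zf_rL h' hK' C]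
    rw [inner_smul_left, inner_smul_right, inner_unitary (Grp.uni c.bR _ _ _), pow_add]
    simp [mul_assoc, hF]
  have e2 : inner ℂ (c.bt.Phi F (Zf c Λ K A)) (c.bt.Phi F (Zf c Λ' K C)) =
      κ * ((∫ p in Fc, ‖F p‖ ^ 2 * dn (fun p => K p * ft g0 p) a b p : ℝ) : ℂ) := by
    rw [c.bt.adj b1, ← c.bt.mul_apply b1.cj b1, e _ (b1.cj.mul b1), ← integral_complex_ofReal,
      ← integral_const_mul]
    refine integral_congr_ae (.of_forall fun p => ?_)
    simp only [SN.conj_mul_self]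
    push_cast
    ring
  have i1 : IntegrableOn (dn (fun p => K p * ft g0 p) a b) Fc := by
    have := (hi.const_mul κ⁻¹).re
    simpa [← mul_assoc, hκ, IntegrableOn] using this
  have i2 : IntegrableOn (fun p => ‖F p‖ ^ 2 * dn (fun p => K p * ft g0 p) a b p) Fc := by
    obtain ⟨M, -, hM⟩ := b1.nonneg_bound
    exact i1.bdd_mul (c := M ^ 2) (b1.1.norm.pow_const 2).aestronglyMeasurable
      (.of_forall fun p => by
        rw [Real.norm_of_nonneg (sq_nonneg _)]
        exact pow_le_pow_left₀ (norm_nonneg _) (hM p) 2)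
  have pos : ∀ p ∈ Fc, 0 < ‖F p‖ ^ 2 * dn (fun p => K p * ft g0 p) a b p := fun p hp => by
    obtain ⟨h1, h2⟩ := (mem_Fc p).1 hp
    have := norm_pos_iff.2 (n1 p)
    have := norm_pos_iff.2 (mul_ne_zero (hK.wt.ne p) (g0_ne p))
    unfold dn
    positivity
  have n2 : (∫ p in Fc, ‖F p‖ ^ 2 * dn (fun p => K p * ft g0 p) a b p) ≠ 0 := fun hz => by
    have := (integral_eq_zero_iff_of_nonneg_ae ((ae_fc _).mono fun p hp => (pos p hp).le) i2).1 hz
    have h0 : ∀ᵐ p ∂(volume : Measure V).restrict Fc, False := by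
      filter_upwards [this, ae_fc _] with p h1 h2 using (pos p h2).ne' h1
    rw [eventually_false_iff_eq_bot, ae_eq_bot, restrict_eq_zero] at h0
    exact isOpen_Fc.measure_ne_zero volume ⟨_, thi_mem 0⟩ h0
  by_contra hn
  rw [(Nat.not_even_iff_odd.1 hn).neg_one_pow, e2] at e1
  exact mul_ne_zero hκ (Complex.ofReal_ne_zero.2 n2) (by linear_combination e1 / 2)

lemma cfs_eb (μ : Fin k → Ix) (A : Fin k → Fin 4) (p : V) :
    cfs (eb μ) A p = cm μ A p := congrArg _ (Finset.prod_congr rfl fun j _ => by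
  simp [cf, eb, mdot, bas, eta_sq, ← mul_assoc])

/-- existence of the densities -/
theorem dex (hT : Mu c 4 Λ) (h0 : ZZ.Two.Pp c Λ) (hk : k + 1 < (4 : ℝ)) (h : Mu c d Λ') :
    ∃ κ : (Fin k → Fin 4) → (Fin l → Fin 4) → ℂ, (∀ A C, κ A C ≠ 0 → Even (nU A + nU C) ∧
      1 / 2 < d / 2 + ∑ j, yw (C j) ∧ ∃ K, Ad l K ∧ Zf c Λ' K C ≠ 0) ∧
      ∀ J μ, Den c (Λ J gS) (Λ' μ gS) (FF (d / 2) κ J μ) := by
  obtain ⟨K1, h1⟩ := ex_ad k
  obtain ⟨K2, h2⟩ := ex_ad l
  have hK := h1.mul h2.wt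
  have hK' := h2.mul h1.wt
  simp only [mul_comm (K1 _)] at hK'
  generalize (fun p => K2 p * K1 p) = K at hK hK'
  have : ∀ (A : Fin k → Fin 4) (C : Fin l → Fin 4), ∃ κ : ℂ, (κ ≠ 0 → Even (nU A + nU C) ∧
      1 / 2 < d / 2 + ∑ j, yw (C j) ∧ ∃ K, Ad l K ∧ Zf c Λ' K C ≠ 0) ∧ ∃ F : V → ℝ, (∀ p, F p =
        dn (fun p => K p * ft g0 p) (∑ j, (xw (A j) - yw (A j)) + ∑ j, (xw (C j) - yw (C j)))
        (d / 2 + ∑ j, yw (A j) + ∑ j, yw (C j)) p) ∧ IntegrableOn (fun p => κ * F p) Fc ∧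
      ∀ G, SN.Bd G → inner ℂ (Zf c Λ K A) (c.bt.Phi G (Zf c Λ' K C)) =
        ∫ p in Fc, G p * (κ * F p) := fun A C => by
    by_cases hA : Zf c Λ' K C = 0
    · exact ⟨0, fun h => absurd rfl h, _, fun _ => rfl, by simp, fun G _ => by simp [hA]⟩
    · obtain ⟨κ, a1, a2, a3⟩ := overlap (hT.vc hK A) (h.vc hK' C) hK.wt1 (zfg_ae hT h0 hk hK A)
      refine ⟨κ, fun h0 => ⟨par hT h hK hK' a2 a3 h0, (a1 h0).2, K, hK', hA⟩, _, fun p => ?_, a2, a3⟩
      congr 1
      · simp only [Finset.sum_sub_distrib]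
        ring
      · ring
  choose κ a1 F a2 a3 a4 using this
  refine ⟨κ, a1, fun J μ G hG => ?_⟩
  have hS : Fc ⊆ {p | 0 < be p} := fun p hp => ((mem_Fc p).1 hp).1
  have m := minv hK.wt.bd.1
  have ci := (hK.wt.cont.mono (subset_univ Fc)).inv₀ fun p _ => hK.wt.ne p
  obtain ⟨-, B, b1, b2, b3⟩ := id hG
  have g1 := (cp_ind b1 b2 (.const 1)).mul m ci
  have g2 := hG.mul m ci
  have e1 := expand (c := c) (Λ := Λ) hK g1 hS (eb J)
  have e2 := expand (c := c) (Λ := Λ') hK' g2 hS (eb μ)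
  have bb := fun A C => (g1.cfs hS (eb J) A).1.cj.mul (g2.cfs hS (eb μ) C).1
  have hB : ∀ p, conj (B.indicator (fun _ => (1 : ℂ)) p) * G p = G p := fun p => by
    by_cases hp : p ∈ B <;> simp [hp, b3 p]
  simp only [inv_mul_cancel_right₀ (hK.wt.ne _), sum_eb J fun J => Λ J gS,
    sum_eb μ fun J => Λ' J gS] at e1 e2
  have e := congrArg₂ (inner ℂ) e1 e2
  rw [c.bt.adj (.ind b1.measurableSet), ← c.bt.mul_apply (SN.Bd.ind b1.measurableSet).cj hG.1,
    sum_inner] at e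
  simp only [hB, _root_.map_sum, inner_sum, c.bt.adj (g1.cfs hS _ _).1,
    ← c.bt.mul_apply (g1.cfs hS _ _).1.cj (g2.cfs hS _ _).1, a4 _ _ _ (bb _ _)] at e
  have ii := fun A C => (a3 A C).bdd_mul (bb A C).1.aestronglyMeasurable
    (.of_forall (bb A C).2.choose_spec)
  rw [e, Finset.sum_congr rfl fun A _ => (integral_finsetSum _ fun C _ => ii A C).symm,
    ← integral_finsetSum _ fun A _ => integrable_finsetSum _ fun C _ => ii A C]
  refine integral_congr_ae (.of_forall fun p => ?_)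
  simp only [FF, Finset.mul_sum]
  refine Finset.sum_congr rfl fun A _ => Finset.sum_congr rfl fun C _ => ?_
  have k0 := hK.wt.ne p
  have k1 : conj (K p) ≠ 0 := by simpa using k0
  rw [a2, dn, Complex.ofReal_mul, ← SN.conj_mul_self, cfs_eb, cfs_eb]
  conv_rhs => rw [← hB p]
  simp only [map_mul, map_inv₀, Complex.conj_ofReal, Complex.ofReal_mul]
  field_simp

end

end Vale.Agent.P352X.ZZ.Pl
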