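import Vale.Agent.P352Z.SA.PolyA
import Vale.Agent.P352Z.SA.PolyD
import Vale.Agent.P352Z.SG.Lm2
import Vale.Agent.P352Z.R.TWO.St

/-!
# P352Z: overlaps of `T` with logarithmic multiplets (helper40)
-/

set_option linter.all false

open MeasureTheory Measure Set Filter Topology
open scoped SchwartzMap ComplexConjugate NNReal ENNReal LineDeriv

namespace Vale.Agent.P352X.ZZ.Pl

open Vale.Agent.P352.GF Vale.Agent.P352.BW Vale.Agent.P352.H496 Vale.Agent.P352.H755
open UniformSpace (Completion)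
open Complex (I)
open Vale.Agent.P352X.Two hiding Mu Zf Zs Vc Phi_W ug_ut overlap expand rk Phi_inj nu_Phi'
  eq_zero_of_nu transfer
open Vale.Agent.P352X.Poly hiding Den cov par all_bd zf_rL
open Vale.Agent.P352X.ZZ.Two Lgm SN.Calc

noncomputable section

/-- multiplication with `μ ^ M` in momentum space -/
def nb (M : ℕ) : Sch →L[ℂ] Sch := (ftS.symm : Sch →L[ℂ] Sch) ∘L
  SchwartzMap.smulLeftCLM ℂ (fun p : V => (mu p : ℂ) ^ M) ∘L (ftS : Sch →L[ℂ] Sch)

lemma ft_nb (M : ℕ) (f : Sch) : ft (ev (nb M f)) = fun p => (mu p : ℂ) ^ M * ft (ev f) p :=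
  (ft_symm _).trans (funext fun p => (SchwartzMap.smulLeftCLM_apply_apply
    ((Complex.ofRealCLM.hasTemperateGrowth.comp Ap.temp_mu).pow M) _ p).trans (by simp))

lemma nb_sim (M : ℕ) {s : ℝ} {L : Ix → V} {a : V} {f g : Sch} (hs : 0 < s) (hL : IsLor L)
    (e : ∀ x, g x = f (sim s L a x)) :
    nb M g = ((s ^ (2 * M) : ℝ) : ℂ) • Grp.simS hs hL a (nb M f) := by
  refine ftS.injective (SchwartzMap.ext fun p => ?_)
  obtain ⟨q, rfl⟩ : ∃ q, p = s • q := ⟨s⁻¹ • p, (smul_inv_smul₀ hs.ne' p).symm⟩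
  rw [map_smul ftS, SchwartzMap.smul_apply, ftS_apply, ftS_apply, ft_nb,
    show ev (Grp.simS hs hL a (nb M f)) = fun z => ev (nb M f) (sim s L a z) from
      funext (Grp.simS_apply hs hL a _), show ev g = fun z => ev f (sim s L a z) from funext e]
  simp only [ft_sim hs hL, ft_nb, mu_lor _ hL, mu_smul, smul_eq_mul]
  push_cast
  ring

variable {D : Type*} [NormedAddCommGroup D] [InnerProductSpace ℂ D] {c : Ctx D}
  {N n M : ℕ} {d : ℝ} {O Y : ℕ → (Fin N → Ix) → Sch →L[ℂ] Completion D} {K : V → ℂ}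

lemma lmu_nb (h : LMu c n d O) (M : ℕ) : LMu c n (d + 2 * M) fun j μ => O j μ ∘L nb M where
  perp j μ f := h.perp j μ _
  cov j μ s L a f g hs hL e := by
    simp only [ContinuousLinearMap.comp_apply, nb_sim M hs hL e, map_smul, ex0_smul, smul_smul]
    rw [h.cov j μ s L a _ _ hs hL (Grp.simS_apply hs hL a _)]
    refine Finset.sum_congr rfl fun ν _ => ?_
    rw [← Complex.ofReal_mul, ← Real.rpow_natCast, mul_right_comm, ← Real.rpow_add hs]
    congr 4
    push_cast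
    ring

lemma rel_nb {X : Sch →L[ℂ] Completion D} (h : Tr c X) (M : ℕ) : c.bt.Phi (ft g0) (X (nb M gS)) =
    c.bt.Phi (fun p => (mu p : ℂ) ^ M * ft g0 p) (X gS) := by
  rw [h.rel, ft_nb]
  rfl

lemma bd_nb (M : ℕ) : SN.Bd fun p => (mu p : ℂ) ^ M * ft g0 p :=
  (ft_nb M gS) ▸ bd_ft ⟨nb M gS, rfl⟩

/-- the unitarity bound for vectors that are divisible by a power of the mass -/
lemma low_mul {w z : Completion D} {x y : ℝ} (h : Vc c K w x y) (hK : Wt K univ)
    (hw : ∀ᵐ p ∂c.nu w, p ∈ Fc)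
    (e : c.bt.Phi (ft g0) w = c.bt.Phi (fun p => (mu p : ℂ) ^ M * ft g0 p) z)
    (hy : y ≤ 1 / 2 + M) : w = 0 := by
  have m1 : Measurable fun p => (mu p : ℂ) ^ M := by fun_prop
  have m2 := minv hK.bd.1
  have e1 : c.nu w = (c.nu z).withDensity (sq2 fun p => (mu p : ℂ) ^ M) := by
    rw [← wd_inv (c.nu w) wt_g0.bd.1 g0_ne, ← nu_Phi' wt_g0.bd, e, nu_Phi' (bd_nb M),
      ← wd_sq2 _ m1 wt_g0.bd.1, wd_inv _ wt_g0.bd.1 g0_ne]
  have a : ∀ᵐ p ∂rk c K w, p ∈ Fc := ae_wd hw _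
  have := ((h.semi hK).wd a 0 ((-(2 * M) : ℤ) : ℝ)).zero' (fun B h1 h2 => lt_of_le_of_lt ?_
    (ZZ.Two.Wt.fin (c := c) hK z B h1 (subset_univ _))) (by push_cast; linarith)
  · rw [restrict_withDensity meas_Fc, restrict_eq_self_of_ae_mem a,
      withDensity_eq_zero_iff (meas_pw2 _ _).aemeasurable] at this
    have h0 : ∀ᵐ p ∂rk c K w, False := by
      filter_upwards [this, a] with p h1 h2
      obtain ⟨h3, h4⟩ := (mem_Fc p).1 h2
      exact (ENNReal.ofReal_pos.2 (by positivity)).ne' h1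
    rw [eventually_false_iff_eq_bot, ae_eq_bot] at h0
    exact eq_zero_of_nu (c := c) (by rw [ZZ.Two.Wt.nu hK w, h0, withDensity_zero_left])
  · rw [rk, rk, e1, ← withDensity_mul _ (meas_sq2 m1) (meas_sq2 m2),
      ← withDensity_mul _ ((meas_sq2 m1).mul (meas_sq2 m2)) (meas_pw2 _ _)]
    refine Measure.le_iff'.1 (withDensity_mono (.of_forall fun p => ?_)) B
    simp only [Pi.mul_apply, mul_right_comm (sq2 _ p)]
    refine mul_le_of_le_one_left' ?_
    rw [sq2, pw2, ← ENNReal.ofReal_mul (sq_nonneg _), ENNReal.ofReal_le_one, Real.rpow_zero, one_mul,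
      Real.rpow_intCast, norm_pow, Complex.norm_real, Real.norm_eq_abs, ← pow_mul, mul_comm M,
      pow_mul, sq_abs, ← pow_mul, zpow_neg]
    exact_mod_cast mul_inv_le_one

lemma ch_sum {ι : Type*} [Fintype ι] {F : ι → V → ℂ} {v : ι → Completion D} (hF : ∀ i, SN.Bd (F i))
    (h : ∀ a i, c.bt.Dom (pw 0 a) (v i)) (m j : ℕ) :
    ∑ i, c.bt.Phi (F i) (ch c m 0 (v i) j) = ch c m 0 (∑ i, c.bt.Phi (F i) (v i)) j := by
  unfold ch
  split_ifs
  · have := (psi_sum Finset.univ (fun _ => 1) (meas_pw 0 (m - j)) fun i => (h _ i).Phi (hF i)).2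
    simp only [one_smul] at this
    rw [this]
    exact Finset.sum_congr rfl fun i _ => (Psi_Phi_comm (h _ i) (hF i)).symm
  · simp

/-- the selection rule -/
lemma sel (h : LMu c n d O) (hd : N + 2 ≤ d + 2 * M)
    (hY : ∀ m, Mu c (d + 2 * M) (Y m) ∧ ZZ.Two.Pp c (Y m))
    (e : ∀ j μ f, O j μ (nb M f) = ∑ m ∈ Finset.range (n + 1), ch c m 0 (Y m μ f) j)
    (hK : Ad N K) {C : Fin N → Fin 4} (hC : d / 2 + ∑ j, yw (C j) ≤ 1 / 2) {m : ℕ} (hm : m ≤ n) :
    Zf c (Y m) K C = 0 := by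
  classical
  by_contra h0
  obtain ⟨m, h1, h2⟩ := ((Finset.range (n + 1)).filter fun m => Zf c (Y m) K C ≠ 0).exists_max_image
    id ⟨m, by simp [Nat.lt_succ_iff, hm, h0]⟩
  simp only [Finset.mem_filter, id] at h1 h2
  refine h1.2 (low_mul (M := M) (z := Zf c (O m) K C) ((hY m).1.vc hK C) hK.wt1
    (zfg_ae (hY m).1 (hY m).2 (by linarith) hK C) ?_ (by linarith))
  have : Zf c (Y m) K C = ∑ J, c.bt.Phi (fun p => K p * sy (fun j => fr (C j) p) J)
      (O m J (nb M gS)) := by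
    simp only [e, _root_.map_sum]
    rw [Finset.sum_comm, Finset.sum_congr rfl fun a _ => ch_sum (hK.ok C) (fun i J =>
      (((hY a).1.mul (hY a).2 hd 0 i J).choose_spec gS).1) a m,
      Finset.sum_eq_single_of_mem m h1.1 fun a ha hne => ?_, ch, if_pos le_rfl, Nat.sub_self,
      pw_zero, Psi_bd (.const 1), c.bt.one]
    · rfl
    · unfold ch
      split_ifs with hle
      · rw [show ∑ J, _ = Zf c (Y a) K C from rfl, by_contra fun hz => hne (le_antisymm
          (h2 a ⟨ha, hz⟩) hle), Psi_zero_vec (meas_pw _ _)]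
      · rfl
  rw [this, ZZ.Two.Zf, Zs, _root_.map_sum, _root_.map_sum]
  refine Finset.sum_congr rfl fun J _ => ?_
  rw [c.bt.comm wt_g0.bd (hK.ok C J), rel_nb (h.tr m J), c.bt.comm (bd_nb M) (hK.ok C J)]

variable {X : (Fin 2 → Ix) → Sch →L[ℂ] Completion D}

/-- conservation in momentum space -/
lemma con_phi (h : Mu c 4 X) (hc : ∀ s (f : Sch), ∑ r, X ![r, s] (∂_{(bas r 1 : V)} f) = 0) (s : Ix)
    {G : V → ℂ} (h0 : Cp Fc G) :
    ∑ m, c.bt.Phi (fun p => G p * (eta m * p m : ℝ)) (X ![m, s] gS) = 0 := by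
  have hG : ∀ m, SN.Bd fun p => G p * (eta m * p m : ℝ) := fun m =>
    (h0.mul (by fun_prop) (by fun_prop)).1
  have b := wt_g0.bd
  refine Phi_inj (c := c) b g0_ne ?_
  have := congrArg (fun z => I • c.bt.Phi G (c.bt.Phi (ft g0) z)) (hc s gS)
  simp only [_root_.map_sum, map_zero, smul_zero, Finset.smul_sum, h.rel] at this ⊢
  refine (Finset.sum_congr rfl fun m _ => ?_).trans this
  rw [← c.bt.mul_apply b (hG m), ← c.bt.mul_apply h0.1 (bd_ft ⟨_, rfl⟩),
    ← ContinuousLinearMap.smul_apply, ← c.bt.smul _ (h0.1.mul (bd_ft ⟨_, rfl⟩))]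
  congr 2
  funext p
  rw [← Grp.pd_ev, ft_pd ⟨_, rfl⟩]
  show ft g0 p * _ = I * (G p * (_ * ft g0 p))
  linear_combination (G p * (eta m * p m : ℝ) * ft g0 p) * Complex.I_sq

/-- the properties of the polynomials -/
structure Gd (d : ℤ) (π : Ix → Ix → (Fin N → Ix) → MvPolynomial Ix ℂ) : Prop where
  hom : ∀ r s μ, (π r s μ).IsHomogeneous d.toNat ∧ (d < 0 → π r s μ = 0)
  con : ∀ s μ, ∑ r, MvPolynomial.C (eta r : ℂ) * MvPolynomial.X r * π r s μ = 0
  trc : ∀ μ, ∑ r, MvPolynomial.C (eta r : ℂ) * π r r μ = 0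
  dv1 : ∀ r s k μ, mup ∣ π r s μ * MvPolynomial.X k - π k s μ * MvPolynomial.X r
  dv2 : ∀ r s k μ, mup ∣ π r s μ * MvPolynomial.X k - π r k μ * MvPolynomial.X s
  cov : ∀ r s μ L p, IsLor L → evp (π r s μ) (sim 1 L 0 p) = ∑ k, ∑ l, ∑ ν : Fin N → Ix,
    ((L k r * L l s * ∏ i, L (ν i) (μ i) : ℝ) : ℂ) * evp (π k l ν) p

/-- one canonical multiplet -/
lemma one_mu {d : ℤ} {Z : (Fin N → Ix) → Sch →L[ℂ] Completion D} (h : Mu c 4 X)
    (h0 : ZZ.Two.Pp c X) (hc : ∀ s (f : Sch), ∑ r, X ![r, s] (∂_{(bas r 1 : V)} f) = 0)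
    (ht : ∀ f, ∑ r, (eta r : ℂ) • X ![r, r] f = 0) (he : Even (d - N))
    (hZ : Mu c (d + 2 * M) Z) (hs : ∀ K C, Ad N K → (d : ℝ) / 2 + ∑ j, yw (C j) ≤ 1 / 2 →
      Zf c Z K C = 0) : ∃ π, Gd d π ∧ ∀ r s μ,
      Den c (X ![r, s] gS) (Z μ gS) fun p => (mu p : ℂ) ^ M * evp (π r s μ) p := by
  obtain ⟨κ, hκ, hD⟩ := dex h h0 (by norm_num) hZ
  rw [show ((d : ℝ) + 2 * M) / 2 = d / 2 + M by ring] at hD
  have ct := pol.1 2 N (d / 2 + M) κ
  have hm : ∀ p ∈ Fc, (mu p : ℂ) ^ M ≠ 0 := fun p hp =>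
    pow_ne_zero _ (Complex.ofReal_ne_zero.2 ((mem_Fc p).1 hp).2.ne')
  obtain ⟨π, e, h1, h2, h3, h4⟩ := alg (d := d) (fun r s μ t L p ht hL hp => by
      have := cov h hZ hD ct ![r, s] μ ht hL hp
      rw [FF_add _ _ _ _ _ ((Fc_sim ht hL p).2 hp), sim_smul (s := t), mu_smul, mu_lor _ hL,
        ← sim_smul, sum2, show 4 + ((d : ℝ) + 2 * M) - 4 = d + (2 * M : ℕ) by push_cast; ring,
        Real.rpow_add ht, Real.rpow_natCast, Real.rpow_intCast] at this
      simp only [FF_add _ _ _ _ _ hp, Fin.prod_univ_two, Matrix.cons_val_zero, Matrix.cons_val_one,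
        mul_left_comm _ ((mu p : ℂ) ^ M), ← Finset.mul_sum] at this
      refine mul_left_cancel₀ (mul_ne_zero (pow_ne_zero (2 * M) (Complex.ofReal_ne_zero.2 ht.ne'))
        (hm p hp)) ?_
      push_cast at this ⊢
      linear_combination this)
    (rat he fun A C hk => ⟨(hκ A C hk).1, not_le.1 fun hy =>
      let ⟨K, k1, k2⟩ := (hκ A C hk).2.2
      k2 (hs K C k1 hy)⟩)
  refine ⟨π, ⟨h1, fun s μ => AlgP.ext_Fc fun p hp => ?_, fun μ => AlgP.ext_Fc fun p hp => ?_,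
    h2, h3, h4⟩, fun r s μ G hG => (hD _ μ G hG).trans (integral_congr_ae ((ae_fc _).mono
      fun p hp => by simp only [FF_add _ _ _ _ _ hp, e r s μ p hp]))⟩
  · have := lin (a := fun m p => eta m * p m) (fun m => by fun_prop) (fun G => con_phi h hc s)
      (fun r => hD ![r, s] μ) (fun r => ct _ μ) hp
    simp only [FF_add _ _ _ _ _ hp, mul_left_comm _ ((mu p : ℂ) ^ M), ← Finset.mul_sum,
      ← e _ _ _ p hp, mul_eq_zero, hm p hp, false_or] at this
    rw [evp, evp, map_zero, ← this, _root_.map_sum]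
    exact Finset.sum_congr rfl fun r _ => by simp [evp]
  · have := lin (a := fun m p => eta m) (fun m => by fun_prop) (fun G hG => by
      simpa only [_root_.map_sum, map_smul, map_zero, mul_comm (G _), c.bt.smul _ hG.1,
        ContinuousLinearMap.smul_apply] using congrArg (c.bt.Phi G) (ht gS))
      (fun r => hD ![r, r] μ) (fun r => ct _ μ) hp
    simp only [FF_add _ _ _ _ _ hp, mul_left_comm _ ((mu p : ℂ) ^ M), ← Finset.mul_sum,
      ← e _ _ _ p hp, mul_eq_zero, hm p hp, false_or] at this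
    rw [evp, evp, map_zero, ← this, _root_.map_sum]
    exact Finset.sum_congr rfl fun r _ => by simp [evp]

lemma cont_pw (i : ℕ) : ContinuousOn (pw 0 i) Fc := Complex.continuous_ofReal.comp_continuousOn
  (((continuousOn_const.sub (((by fun_prop : Continuous mu).continuousOn.log fun p hp =>
    ((mem_Fc p).1 hp).2.ne').div_const 2)).pow i).div_const _)

lemma int_pw (i : ℕ) (q : MvPolynomial Ix ℂ) {f g : Fn} (hf : IsTest f) (hg : IsTest g) :
    IntegrableOn (fun p => pw 0 i p * evp q p * (conj (ft f p) * ft g p)) Fc := by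
  obtain ⟨u, hu⟩ := test_mul (Api4.temperate_evp q (ContinuousLinearMap.id ℝ V)) (test_ft hg)
  have := ((((Lg.const 0).sub (lg_log.mul (Lg.const 2⁻¹))).pow i).mul
    (Lg.const (i.factorial : ℝ)⁻¹)).int (by fun_prop) hf ⟨ftS.symm u, rfl⟩
  rw [ft_symm, hu] at this
  exact this.congr (.of_forall fun p => by simp only [pw, div_eq_mul_inv]; simp; ring)

/-- **overlaps with logarithmic multiplets**, generic form -/
theorem poly_gen {d : ℤ} (h : Mu c 4 X) (h0 : ZZ.Two.Pp c X)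
    (hc : ∀ s (f : Sch), ∑ r, X ![r, s] (∂_{(bas r 1 : V)} f) = 0)
    (ht : ∀ f, ∑ r, (eta r : ℂ) • X ![r, r] f = 0) (hO : LMu c n d O)
    (top : ∀ j, n < j → O j = 0) (he : Even (d - N)) :
    ∃ π : ℕ → Ix → Ix → (Fin N → Ix) → MvPolynomial Ix ℂ, (∀ j r s μ (f' f : Sch),
      inner ℂ (X ![r, s] f') (O j μ f) = ∫ p in Fc, (∑ m ∈ Finset.range (n + 1),
        if j ≤ m then pw 0 (m - j) p * evp (π m r s μ) p else 0) *
          (conj (ft (ev f') p) * ft (ev f) p)) ∧ ∀ m, Gd d (π m) := by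
  obtain ⟨M, hM⟩ := exists_nat_ge ((N + 2 - d : ℝ) / 2)
  have hd : (N : ℝ) + 2 ≤ d + 2 * M := by linarith
  obtain ⟨Y, hY, e⟩ := LMu.dec hd (n + 1) le_rfl _ (lmu_nb hO M) fun j hj => by
    funext μ
    rw [top j hj]
    rfl
  have : ∀ m, ∃ π, Gd d π ∧ (m ≤ n → ∀ r s μ,
      Den c (X ![r, s] gS) (Y m μ gS) fun p => (mu p : ℂ) ^ M * evp (π r s μ) p) := fun m => by
    by_cases hm : m ≤ n
    · exact (one_mu h h0 hc ht he (hY m).1 fun K C hK hC => sel hO hd hY e hK hC hm).imp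
        fun π hπ => ⟨hπ.1, fun _ => hπ.2⟩
    · exact ⟨0, ⟨fun _ _ _ => ⟨MvPolynomial.isHomogeneous_zero _ _ _, fun _ => rfl⟩,
        fun _ _ => by simp, fun _ => by simp, fun _ _ _ _ => by simp, fun _ _ _ _ => by simp,
        fun _ _ _ _ _ _ => by simp [evp]⟩, fun h => (hm h).elim⟩
  choose π hπ hD using this
  refine ⟨π, fun j r s μ f' f => ?_, hπ⟩
  have ii : ∀ {f g : Fn}, IsTest f → IsTest g → IntegrableOn (fun p => (∑ m ∈ Finset.range (n + 1),
      if j ≤ m then pw 0 (m - j) p * evp (π m r s μ) p else 0) * (conj (ft f p) * ft g p)) Fc :=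
    fun hf hg => by
      simp only [Finset.sum_mul]
      refine integrable_finsetSum _ fun m _ => ?_
      split_ifs
      exacts [int_pw _ _ hf hg, by simp]
  have := transfer wt_g0.bd g0_ne (bd_ft ⟨f', rfl⟩) (bd_ft ⟨f, rfl⟩) (h.rel ![r, s] f')
    ((hO.tr j μ).rel f) (fun G hG => all_bd ((ii g0_in.1 g0_in.1).congr
      (.of_forall fun p => mul_comm _ _)) (fun G hG => ?_) (h.ae h0 (by norm_num) _ gS) hG)
    (ii ⟨f', rfl⟩ ⟨f, rfl⟩) (.const 1)
  · simpa only [c.bt.one, one_mul, ContinuousLinearMap.one_apply] using this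
  have hm : ∀ p ∈ Fc, (mu p : ℂ) ^ M ≠ 0 := fun p hp =>
    pow_ne_zero _ (Complex.ofReal_ne_zero.2 ((mem_Fc p).1 hp).2.ne')
  have c1 : Continuous fun p => (mu p : ℂ) ^ M := by fun_prop
  have g1 : Cp Fc fun p => G p * ((mu p : ℂ) ^ M)⁻¹ :=
    hG.mul c1.measurable.inv (c1.continuousOn.inv₀ hm)
  have g2 := fun i => g1.mul (meas_pw 0 i) (cont_pw i)
  have e1 : c.bt.Phi G (O j μ gS) =
      c.bt.Phi (fun p => G p * ((mu p : ℂ) ^ M)⁻¹) (O j μ (nb M gS)) := by
    refine Phi_inj (c := c) wt_g0.bd g0_ne ?_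
    rw [c.bt.comm wt_g0.bd g1.1, rel_nb (hO.tr j μ), ← c.bt.mul_apply g1.1 (bd_nb M),
      ← c.bt.mul_apply wt_g0.bd hG.1]
    congr 2
    funext p
    obtain ⟨-, B, -, b2, b3⟩ := hG
    by_cases hp : p ∈ B
    · field_simp [hm p (b2 hp)]
    · simp [b3 p hp]
  have c2 : ∀ q, Continuous (evp q) := fun q =>
    (Api4.temperate_evp q (ContinuousLinearMap.id ℝ V)).1.continuous
  rw [e1, show O j μ (nb M gS) = _ from e j μ gS, _root_.map_sum, inner_sum]
  simp only [Finset.mul_sum]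
  rw [integral_finsetSum _ fun m _ => ?_]
  · refine Finset.sum_congr rfl fun m hm' => ?_
    unfold ch
    split_ifs
    · rw [Phi_Psi g1.1 (((hY m).1.mul (hY m).2 hd 0 _ μ).choose_spec gS).1, Psi_bd (g2 _).1,
        hD m (Nat.lt_succ_iff.1 (Finset.mem_range.1 hm')) r s μ _ (g2 _)]
      refine integral_congr_ae ((ae_fc _).mono fun p hp => ?_)
      field_simp [hm p hp]
    · simp
  · split_ifs
    · exact cp_int hG (cont_gg.continuousOn.mul ((cont_pw _).mul (c2 _).continuousOn))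
    · simp

/-- **overlaps of `T` with logarithmic multiplets** -/
theorem poly_log {d : ℤ} (hT : CT c.Q c.T) (hO : LMu c n d O) (top : ∀ j, n < j → O j = 0)
    (he : Even (d - N)) : ∃ π : ℕ → Ix → Ix → (Fin N → Ix) → MvPolynomial Ix ℂ,
    (∀ j r s μ (f' f : Sch), inner ℂ ((c.T r s (ev f') c.Q.vac : D) : Completion D) (O j μ f) =
      ∫ p in Fc, (∑ m ∈ Finset.range (n + 1),
        if j ≤ m then pw 0 (m - j) p * evp (π m r s μ) p else 0) *
          (conj (ft (ev f') p) * ft (ev f) p)) ∧ ∀ m, Gd d (π m) :=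
  poly_gen (mu_of c.hT hT.cov) (pp2 c.hT) (fun s f => by
    simp only [P2.lv_apply, ← Grp.pd_ev, ← coe_sum]
    exact (congrArg _ (hT.conserved s _ _ ⟨f, rfl⟩)).trans Completion.coe_zero) (fun f => by
    simp only [P2.lv_apply, ← Completion.coe_smul, ← coe_sum]
    exact (congrArg _ (hT.trace _ _ ⟨f, rfl⟩)).trans Completion.coe_zero) hO top he

/-- the part orthogonal to the vacuum -/
def pO (c : Ctx D) (Z : Sch →L[ℂ] Completion D) : Sch →L[ℂ] Completion D :=
  Z - (innerSL ℂ c.Om ∘L Z).smulRight c.Om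

lemma pO_apply (Z : Sch →L[ℂ] Completion D) (f : Sch) :
    pO c Z f = Z f - inner ℂ c.Om (Z f) • c.Om := rfl

lemma pO_perp (Z : Sch →L[ℂ] Completion D) (f : Sch) : inner ℂ c.Om (pO c Z f) = 0 := by
  rw [pO_apply, inner_sub_right, inner_smul_right, show inner ℂ c.Om c.Om = 1 from Kin.inner_om,
    mul_one, sub_self]

lemma pO_inner (Z : Sch →L[ℂ] Completion D) (f : Sch) {v : Completion D}
    (hv : inner ℂ c.Om v = 0) : inner ℂ v (pO c Z f) = inner ℂ v (Z f) := by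
  rw [pO_apply, inner_sub_right, inner_smul_right, inner_eq_zero_symm.1 hv, mul_zero, sub_zero]

/-- removal of the vacuum -/
theorem red {Z : (Fin N → Ix) → Sch →L[ℂ] Completion D} (h : CovM c.Q N d Z) :
    Mu c d fun μ => pO c (Z μ) := fun μ s L a f g hs hL e => by
  obtain ⟨κ, e⟩ := h.cov μ s L a f g hs hL e
  have h2 : ∀ v, inner ℂ c.Om (Ug c.Q s L a v) = inner ℂ c.Om v := fun v => by
    rw [Ug_apply _ hs hL]
    exact Kin.inner_om_U c.bR hs hL a v
  simp only [← Ug_apply _ hs hL] at e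
  simp only [pO_apply, e, map_sub, map_smul, Grp.vac c.bR, inner_add_right, inner_sum,
    inner_smul_right, h2, smul_sub, Finset.sum_sub_distrib, add_smul, Finset.sum_smul, smul_smul]
  rw [show inner ℂ c.Om (om c.Q) = 1 from Kin.inner_om, mul_one]
  exact add_sub_add_right_eq_sub _ _ _

/-- row POLY for every conserved traceless tensor of dimension four -/
theorem poly_thm (hT : CT c.Q c.T) : POLY c := fun N d Z hZ he => by
  have top : ∀ j, 0 < j → (fun j μ => if j = 0 then pO c (Z μ) else 0) j = 0 :=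
    fun j hj => funext fun μ => if_neg hj.ne'
  obtain ⟨π, e, h⟩ := poly_log (n := 0) hT (.of_fam (fun j μ f => by
      split_ifs
      exacts [pO_perp _ _, inner_zero_right _]) top fun l μ s L a f g hs hL e => by
      simpa [ex0] using red hZ μ s L a f g hs hL e) top he
  refine ⟨π 0, fun r s μ f' f => (pO_inner _ f (pp2 c.hT ![r, s] f')).symm.trans ?_, (h 0).hom,
    (h 0).con, (h 0).trc, (h 0).dv1, (h 0).dv2, (h 0).cov⟩
  simpa [pw_zero, P2.lv_apply] using e 0 r s μ f' f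

theorem poly_row (c : Ctx D) : T2 c → c.can → POLY c := fun _ h => poly_thm (c.hC0 h).ct

end

end Vale.Agent.P352X.ZZ.Pl
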