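import Vale.Agent.P352Z.SA.Spec
import Vale.Agent.P352Z.SA.PolyL

/-!
# P352Z, step A: row POL (helper40)
-/

set_option linter.all false

open MeasureTheory Filter Topology
open scoped SchwartzMap ComplexConjugate ContDiff

namespace Vale.Agent.P352X.ZZ.SA

open Vale.Agent.P352 Vale.Agent.P352.GF Vale.Agent.P352.BW
open UniformSpace (Completion)

noncomputable section

lemma reidx {n k : ℕ} (g y : ℕ → ℂ) (h : ∀ m, n < m → y m = 0) :
    (∑ m ∈ Finset.range (n + 1), if k ≤ m then g (m - k) * y m else 0) =
      ∑ a ∈ Finset.range (n + 1), g a * y (k + a) := by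
  rw [Finset.sum_subset (Finset.range_mono (Nat.le_add_left (n + 1) k)) fun m _ hm => by
    rw [h m (by simpa using hm), mul_zero, ite_self], Finset.sum_range_add,
    Finset.sum_eq_zero fun m hm => if_neg (Finset.mem_range.1 hm).not_ge, zero_add]
  exact Finset.sum_congr rfl fun a _ => by rw [if_pos (Nat.le_add_right k a), Nat.add_sub_cancel_left]

variable {D : Type*} [NormedAddCommGroup D] [InnerProductSpace ℂ D]

/-- **row POL** -/
theorem pol_row (c : Ctx D) : POL c := fun hT n N d O hO top he => by
  obtain ⟨π, e, h⟩ := Pl.poly_log hT hO top he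
  set y : ℕ → (Fin N → Ix) → Ix → Ix → R := fun m μ a b => if m ≤ n then π m a b μ else 0 with hy
  have y0 : ∀ m μ a b, n < m → y m μ a b = 0 := fun m μ a b hm => if_neg hm.not_ge
  have lg : ∀ m μ, Lg2 d.toNat fun a b => π m a b μ := fun m μ =>
    ⟨fun r s => ((h m).hom r s μ).1, fun r s k => (h m).dv1 r s k μ, fun r s k => (h m).dv2 r s k μ⟩
  have co : ∀ i j μ a b, (∑ j ∈ Finset.range (n + 1), Polynomial.monomial j
      ((j.factorial : ℂ)⁻¹ • y (i + j) μ a b)).coeff j = (j.factorial : ℂ)⁻¹ • y (i + j) μ a b :=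
    fun i j μ a b => by
      simp only [Polynomial.finset_sum_coeff, Polynomial.coeff_monomial, Finset.sum_ite_eq',
        Finset.mem_range]
      split_ifs with hj
      · rfl
      · rw [y0 _ _ _ _ (by omega), smul_zero]
  refine ⟨fun i μ a b => ∑ j ∈ Finset.range (n + 1),
    Polynomial.monomial j ((j.factorial : ℂ)⁻¹ • y (i + j) μ a b), fun i μ a b l f' f _ => ?_,
    fun i μ j => ?_, fun hd i μ a b => Finset.sum_eq_zero fun j _ => ?_, fun i j μ a b => ?_⟩
  · have ii : ∀ j, IntegrableOn (fun p => ((l ^ j / j.factorial : ℝ) : ℂ) *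
        ((∑ m ∈ Finset.range (n + 1), if i + j ≤ m then Two.pw 0 (m - (i + j)) p *
          evp (π m a b μ) p else 0) * (conj (ft (ev f') p) * ft (ev f) p))) Fc := fun j => by
      refine Integrable.const_mul ?_ _
      simp only [Finset.sum_mul]
      refine integrable_finsetSum _ fun m _ => ?_
      split_ifs
      exacts [Pl.int_pw _ _ ⟨f', rfl⟩ ⟨f, rfl⟩, by simp]
    simp only [ex0, inner_sum, inner_smul_right, e, ← integral_const_mul]
    rw [← integral_finsetSum _ fun j _ => ii j]
    refine integral_congr_ae (.of_forall fun p => ?_)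
    simp only [← mul_assoc, ← Finset.sum_mul]
    congr 2
    have z : ∀ m, n < m → evp (y m μ a b) p = 0 := fun m hm => by simp [y0 m μ a b hm, evp]
    have := Two.ex0_add (N := n) l (0 - Real.log (mu p) / 2) (x := fun j => evp (y (i + j) μ a b) p)
      fun j hj => z _ (by omega)
    simp only [ex0, smul_eq_mul, zero_sub, ← sub_eq_add_neg, add_assoc] at this
    rw [Finset.sum_congr rfl fun j _ => congrArg _ ((Finset.sum_congr rfl fun m hm => by
      rw [show π m a b μ = y m μ a b from
        (if_pos (Nat.lt_succ_iff.1 (Finset.mem_range.1 hm))).symm]).trans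
      (reidx (fun a => Two.pw 0 a p) _ z))]
    simp only [Two.pw, zero_sub, add_assoc, ← this, map_sum]
    refine Finset.sum_congr rfl fun j _ => ?_
    rw [evl, Polynomial.coe_eval₂RingHom, Polynomial.eval₂_monomial]
    simp [evp]
    ring
  · simp only [co]
    simp only [hy]
    split_ifs
    · exact ⟨fun r s => by
        simpa [MvPolynomial.smul_eq_C_mul] using ((lg _ μ).hom r s).C_mul _,
        fun r s k => by
          simp only [smul_mul_assoc, ← smul_sub]
          exact dvd_smul_of_dvd _ ((lg _ μ).dv1 r s k), fun r s k => by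
          simp only [smul_mul_assoc, ← smul_sub]
          exact dvd_smul_of_dvd _ ((lg _ μ).dv2 r s k)⟩
    · exact ⟨fun r s => by simpa using MvPolynomial.isHomogeneous_zero _ _ _, fun r s k => by simp,
        fun r s k => by simp⟩
  · have : π (i + j) a b μ = 0 := by
      rcases (show d.toNat < 2 ∨ d.toNat = 2 by omega) with h2 | h2
      · exact (lg _ μ).zero_lt h2 a b
      · exact (h2 ▸ lg _ μ).zero ((h _).trc μ) (fun s => (h _).con s μ) a b
    simp [hy, this]
  · rw [co, co, smul_smul, mul_inv_cancel₀ (by exact_mod_cast j.factorial_ne_zero)]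
    simp

end

end Vale.Agent.P352X.ZZ.SA
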