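import Vale.Agent.P352Z.SA.CC
import Vale.Agent.P352Z.SA.Alg2
import Vale.Agent.P352Z.SA.Pol
import Vale.Agent.P352Z.SA.CHG
import Vale.Agent.P352Z.SG.Pot

/-!
# P352Z, step A: the improved tensor has no logarithms (helper27)
-/

set_option linter.all false

open MeasureTheory Filter Topology
open scoped SchwartzMap ComplexConjugate ContDiff LineDeriv

namespace Vale.Agent.P352X.ZZ.SA

open Vale.Agent.P352 Vale.Agent.P352.GF Vale.Agent.P352.BW Api4 Str MvPolynomial
open UniformSpace (Completion)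
open Complex (I)

noncomputable section

variable {D : Type*} [NormedAddCommGroup D] [InnerProductSpace ℂ D] {Q : Theory D} {c : Ctx D}
  {k m : ℕ} {Tj : ℕ → Ix → Ix → Fld D}

/-- the top component is canonical -/
lemma LF.ct (F : LF Q k Tj) (hm : m ≤ k)
    (h : ∀ j, m < j → ∀ a b f v, IsTest f → Tj j a b f v = 0) : CT Q (Tj m) := by
  refine ⟨fun a b s L y f v hs hL hf => ?_, F.conserved m, F.trace m, F.bian m⟩
  have tg := Grp.test_sim hs hL y hf
  have := Two.ex0_coef (N := k) (x := fun j => ((Tj j a b f (Q.U s L y v) : D) : Completion D) -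
    ∑ p : Ix × Ix, (L p.1 a * L p.2 b : ℂ) • Ug Q s L y (ex0 k (Real.log s) fun i =>
      ((Tj (j + i) p.1 p.2 (fun x => f (sim s L y x)) v : D) : Completion D))) (fun l => ?_) m hm
  · apply Completion.coe_injective D
    rw [sub_eq_zero.1 this, Fintype.sum_prod_type]
    simp only [coe_sum, Completion.coe_smul, ← Grp.coe hs hL]
    refine Finset.sum_congr rfl fun i _ => Finset.sum_congr rfl fun j _ => ?_
    rw [Two.ex0_top _ fun n hn => by rw [h _ (by omega) _ _ _ _ tg, Completion.coe_zero], add_zero]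
  · rw [Two.ex0_sub, Two.ex0_sum, ← Two.ex0_coe, sub_eq_zero, Fintype.sum_prod_type]
    refine (congrArg _ (F.cov l a b s L y f v hs hL hf)).trans ?_
    simp only [coe_sum, Completion.coe_smul, ← Grp.coe hs hL]
    refine Finset.sum_congr rfl fun i _ => Finset.sum_congr rfl fun j _ => ?_
    rw [fam2, Two.ex0_coe, Two.ex0_add _ _ fun n hn => by
      rw [F.top _ _ _ _ _ hn tg, Completion.coe_zero], Two.ex0_map]

lemma LF.top_lv (F : LF Q k Tj) (j : ℕ) (hj : k < j) : (F.p2 j).lv = 0 :=
  funext fun μ => ContinuousLinearMap.ext fun g => by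
    rw [P2.lv_apply, F.top j _ _ _ _ hj ⟨g, rfl⟩]
    rfl

lemma LF.lmu (F : LF c.Q k Tj) : Two.LMu c k ((4 : ℤ) : ℝ) fun j => (F.p2 j).lv :=
  .of_fam (fun j => Two.pp2 _) F.top_lv fun l μ s L a f g hs hL e => by
    have := F.cov l (μ 0) (μ 1) s L a (ev f) c.Q.vac hs hL ⟨f, rfl⟩
    rw [c.Q.U_vac s L a hs hL, show (fun x => ev f (sim s L a x)) = ev g from (funext e).symm]
      at this
    simp only [P2.lv_apply, ← Two.ex0_coe]
    rw [show ex0 k l _ = _ from this, Two.sum2]
    simp only [coe_sum, Completion.coe_smul, Grp.coe hs hL, sub_self, Real.rpow_zero, fam2,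
      one_mul, Fin.prod_univ_two, Matrix.cons_val_zero, Matrix.cons_val_one, Complex.ofReal_mul,
      Int.cast_ofNat]

lemma co_alg (z : ℂ) (P : Polynomial R) (j : ℕ) :
    (algebraMap ℂ (Polynomial R) z * P).coeff j = C z * P.coeff j := by
  rw [Polynomial.algebraMap_apply, Polynomial.coeff_C_mul]
  rfl

lemma co_lam (x : R) (h : Ix → R) (o0 : Polynomial R) (o1 : Ix → Polynomial R)
    (o2 : Ix → Ix → Polynomial R) (j : ℕ) :
    (Polynomial.C x * lam o0 o1 o2 fun γ => Polynomial.C (h γ)).coeff j =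
      x * lam (o0.coeff j) (fun γ => (o1 γ).coeff j) (fun γ δ => (o2 γ δ).coeff j) h := by
  simp only [lam, Polynomial.coeff_C_mul, Polynomial.coeff_add, Polynomial.finset_sum_coeff,
    Polynomial.coeff_smul, mul_assoc]

/-- the induction step -/
theorem step (str : STR c) (tpd : TPDL c) (F : LF c.Q k Tj) (hT : c.T = Tj m) (h1 : 1 ≤ m)
    (hm : m ≤ k) (h : ∀ j, m < j → ∀ a b f v, IsTest f → Tj j a b f v = 0) (a b : Ix) (f : Fn)
    (v : D) (hf : IsTest f) : Tj m a b f v = 0 := by
  have ov := ov_row c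
  have hc : CT c.Q c.T := hT ▸ F.ct hm h
  obtain ⟨K, w, tp⟩ := tpd k Tj F
  obtain ⟨χ, k0, O, S⟩ := str k Tj K w F tp
  obtain ⟨P, p1, p2, -, p4⟩ := pol_row c hc k 2 4 _ F.lmu F.top_lv (by decide)
  choose o o1 o2 o3 _ using fun n : ℕ => pol_row c hc K (n + 3) (5 - n) (O n) (S.lmu n) (S.top n)
    ⟨1 - n, by push_cast; ring⟩
  have ho : ∀ n i r s (γ : Fin n → Ix) a b,
      Ov c a b (ct w χ i r s γ) (o n 0 (ix3 i (r, s) γ) a b) := fun n i r s γ a b =>
    (o1 n 0 _ a b).congr fun l f _ => by simpa only [zero_add] using S.eq n i r s γ l f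
  have t0 : ∀ r s a b, Ov c a b (fun l f => ((fam2 k Tj l r s (ev f) c.Q.vac : D) : Completion D))
      (P 0 ![r, s] a b) := fun r s a b => (p1 0 _ a b).cg fun l f _ => by
    simp only [fam2, Two.ex0_coe, zero_add]
    rfl
  have t1 : ∀ r s a b, Ov c a b (fun l f => ((fam2 k (fun j => Tj (j + 1)) l r s (ev f) c.Q.vac :
      D) : Completion D)) (P 1 ![r, s] a b) := fun r s a b => (p1 1 _ a b).cg fun l f _ => by
    simp only [fam2, Two.ex0_coe, add_comm 1]
    rfl
  have z : ∀ j, m < j → ∀ μ (f : Sch), (F.p2 j).lv μ f = 0 := fun j hj μ f => by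
    rw [P2.lv_apply, h j hj _ _ _ _ ⟨f, rfl⟩, Completion.coe_zero]
  have pm : ∀ μ a b, P m μ a b = Polynomial.C ((P m μ a b).coeff 0) := fun μ a b =>
    Polynomial.ext fun j => by
      rcases j.eq_zero_or_pos with rfl | hj
      · simp
      · have := p4 m j μ a b
        rw [(p1 (m + j) μ a b).uniq (Ov.zero.cg fun l f _ => by
          simp only [fun i => z (m + j + i) (by omega), Two.ex0_nil]), Polynomial.coeff_zero,
          smul_eq_zero] at this
        rw [Polynomial.coeff_C, if_neg hj.ne', this.resolve_left (by simp [j.factorial_ne_zero])]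
  have tm : ∀ r s a b, Ov c a b (fun _ f => ((c.T r s (ev f) c.Q.vac : D) : Completion D))
      (Polynomial.C ((P m ![r, s] a b).coeff 0)) := fun r s a b => pm ![r, s] a b ▸
    (p1 m _ a b).cg fun l f _ => by
      rw [Two.ex0_top _ fun i hi => z _ (by omega) _ _, hT]
      rfl
  have e1 : ∀ μ a b, (P m μ a b).coeff 0 =
      C ((m - 1).factorial : ℂ) * (P 1 μ a b).coeff (m - 1) := fun μ a b => by
    rw [← smul_eq_C_mul, p4, Nat.add_sub_cancel' h1]
  have tr : ∀ n i (γ : Fin n → Ix) a b,
      ∑ r, C (eta r : ℂ) * (o n 0 (ix3 i (r, r) γ) a b).coeff (m - 1) = 0 := fun n i γ a b => by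
    have := (ov.sum Finset.univ fun r => (ho n i r r γ a b).sm (eta r)).uniq (Ov.zero.cg
      fun l f _ => by
        simp only [ct, dv1, Finset.smul_sum]
        rw [Finset.sum_comm]
        refine Finset.sum_eq_zero fun j _ => ?_
        simp only [fun r F => tp.swap l (j, i) (r, r) F (sw F) fun _ _ => rfl,
          ← ContinuousLinearMap.smul_apply, ← ContinuousLinearMap.sum_apply, tp.trc]
        rfl)
    simpa only [Polynomial.finset_sum_coeff, co_alg, Polynomial.coeff_zero] using
      congrArg (·.coeff (m - 1)) this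
  have key := alg (o0 := fun n r s a b => (o 0 0 (ix3 n (r, s) ![]) a b).coeff (m - 1))
    (o1 := fun n r s γ a b => (o 1 0 (ix3 n (r, s) ![γ]) a b).coeff (m - 1))
    (o2 := fun n r s γ δ a b => (o 2 0 (ix3 n (r, s) ![γ, δ]) a b).coeff (m - 1))
    (t := fun r s a b => (P 0 ![r, s] a b).coeff (m - 1))
    (y := fun r s a b => (P 1 ![r, s] a b).coeff (m - 1))
    (fun _ _ _ _ => o2 1 0 _ _) (fun _ _ _ _ _ => o2 2 0 _ _) (fun _ _ => p2 0 _ _)
    (fun a b => by
      have := ((fin_row c).herm _ tm (fun r s => p2 m _ 0) a b).cmul ((m - 1).factorial : ℂ)⁻¹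
      simpa only [e1, ← mul_assoc, ← map_mul, inv_mul_cancel₀ (show ((m - 1).factorial : ℂ) ≠ 0 by
        simp [Nat.factorial_ne_zero]), map_one, one_mul] using this)
    (fun n r s γ δ a b => congrArg (·.coeff (m - 1)) ((ho 2 n r s _ a b).uniq
      ((ho 2 n r s _ a b).cg fun l f _ => by simp [ct, mon, mul_comm])))
    (fun a b x n s => by
      have := congrArg (·.coeff (m - 1)) (cc_row ov _ K w χ k0 O a b
        (fun n i r s γ => o n 0 (ix3 i (r, s) γ) a b) tp S (fun n i r s γ => ho n i r s γ a b)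
        (fun n i r s γ hn => o3 n (by omega) _ _ _ _) x n s)
      simpa only [Polynomial.finset_sum_coeff, Polynomial.algebraMap_apply, ← map_sub, co_lam,
        algebraMap_eq] using this)
    (fun n r s a b => by
      have := congrArg (·.coeff (m - 1)) (((ho 0 n r s ![] a b).sm (eta n)).uniq
        ((((t0 r s a b).der n).sm (-I)).cg fun l f hf =>
          (chg_row c k Tj K w χ k0 O F tp S r s l f hf).1 n))
      simp only [co_alg, Polynomial.coeff_C_mul] at this
      simpa only [map_neg] using this)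
    (fun r s a b => by
      have := congrArg (·.coeff (m - 1)) ((ov.sum Finset.univ fun n =>
        (ho 1 n r s ![n] a b).sm (eta n)).uniq ((((t1 r s a b).add ((t0 r s a b).sm (-4))).sm
          (-I)).cg fun l f hf => ((chg_row c k Tj K w χ k0 O F tp S r s l f hf).2).trans (by
            rw [neg_smul (4 : ℂ), ← sub_eq_add_neg])))
      simp only [co_alg, Polynomial.finset_sum_coeff, Polynomial.coeff_add] at this
      simpa only [map_neg, neg_mul, ← sub_eq_add_neg, show (C 4 : R) = 4 from rfl] using this)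
    (tr 0 · ![]) (fun n γ => tr 1 n ![γ]) fun n γ δ => tr 2 n ![γ, δ]
  exact hT ▸ P2.zero c.hT ((fin_row c).zero hc _ tm (fun r s => p2 m _ 0) fun r s a b =>
    e1 ![r, s] a b ▸ (key r s a b).mul_left _) a b f v hf

/-- **Step A** -/
theorem main_of (c : Ctx D) (str : ∀ R hR, STR (c.wT R hR)) (tpd : TPDL c) : MAIN c :=
  fun k Tj F j a b f v hj hf => by
    have H : ∀ i j, k - i < j → ∀ a b f v, IsTest f → Tj j a b f v = 0 := fun i => by
      induction i with
      | zero => exact fun j hj a b f v hf => F.top j a b f v hj hf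
      | succ i ih =>
        intro j hj
        by_cases e : k - i < j
        · exact ih j e
        · obtain rfl : j = k - i := by omega
          exact step (c := c.wT _ (F.p2 _)) (str _ _) tpd F rfl (by omega) (Nat.sub_le _ _) ih
    exact H k j (by omega) a b f v hf

end

end Vale.Agent.P352X.ZZ.SA
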