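import Vale.Agent.P352Z.SA.Spec
import Vale.Agent.P352Z.SA.Fin
import Vale.Agent.P352Z.SA.PolyL

/-!
# P352Z, step A: rows OV and FIN (helper14)
-/

set_option linter.all false

open MeasureTheory Measure Set Filter Topology
open scoped SchwartzMap ComplexConjugate NNReal ENNReal LineDeriv

namespace Vale.Agent.P352X.ZZ.SA

open Vale.Agent.P352.GF Vale.Agent.P352.BW Vale.Agent.P352.H496 Vale.Agent.P352.H755
open UniformSpace (Completion)
open Vale.Agent.P352X.Two Vale.Agent.P352X.Poly.AlgP

noncomputable section

lemma evl_C (l : ℝ) (p : V) (q : R) : evl l p (Polynomial.C q) = evp q p :=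
  Polynomial.eval₂_C _ _

lemma evl_mon (l : ℝ) (p : V) (n : ℕ) (q : R) : evl l p (Polynomial.monomial n q) =
    evp q p * (((l - Real.log (mu p) / 2) ^ n : ℝ) : ℂ) := by
  rw [Complex.ofReal_pow]
  exact Polynomial.eval₂_monomial _ _

lemma int_evl (l : ℝ) (P : Polynomial R) {f g : Fn} (hf : IsTest f) (hg : IsTest g) :
    IntegrableOn (fun p => evl l p P * (conj (ft f p) * ft g p)) Fc := by
  induction P using Polynomial.induction_on' with
  | add P P' h h' => simp only [map_add, add_mul]; exact h.add h'
  | monomial n q =>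
    obtain ⟨u, hu⟩ := test_mul (Api4.temperate_evp q (ContinuousLinearMap.id ℝ V)) (test_ft hg)
    have := (((Lgm.Lg.const l).sub (Lgm.lg_log.mul (Lgm.Lg.const 2⁻¹))).pow n).int (by fun_prop) hf
      ⟨ftS.symm u, rfl⟩
    rw [ft_symm, hu] at this
    exact this.congr (.of_forall fun p => by simp only [evl_mon, div_eq_mul_inv]; simp; ring)

lemma cont_evl (l : ℝ) (P : Polynomial R) : ContinuousOn (fun p => evl l p P) Fc := by
  induction P using Polynomial.induction_on' with
  | add P P' h h' => simp only [map_add]; exact h.add h'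
  | monomial n q =>
    simp only [evl_mon]
    exact (cont_evp q).continuousOn.mul (Complex.continuous_ofReal.comp_continuousOn
      ((continuousOn_const.sub ((cont_mu.continuousOn.log fun p hp => ne_of_gt hp.1).div_const
        2)).pow n))

lemma evl_zero {P : Polynomial R} (h : ∀ l, ∀ p ∈ Fc, evl l p P = 0) : P = 0 :=
  Polynomial.ext fun j => ext_Fc fun p hp => by
    have : P.map (MvPolynomial.eval fun m => (p m : ℂ)) = 0 :=
      Polynomial.eq_zero_of_infinite_isRoot _ (Set.infinite_of_injective_forall_mem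
        Complex.ofReal_injective fun t => by
          have := h (t + Real.log (mu p) / 2) p hp
          rwa [evl, add_sub_cancel_right, Polynomial.coe_eval₂RingHom,
            Polynomial.eval₂_eq_eval_map] at this)
    have := congrArg (·.coeff j) this
    simpa only [Polynomial.coeff_map, Polynomial.coeff_zero, evp, map_zero] using this

/-- continuous densities are determined by the left test functions -/
theorem van3 {F : V → ℂ} (hF : ContinuousOn F Fc)
    (h : ∀ f' : Sch, ∫ p in Fc, F p * (conj (ft (ev f') p) * ft g0 p) = 0) :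
    ∀ p ∈ Fc, F p = 0 := by
  have hc : ContinuousOn (fun p => F p * ft g0 p) Fc := hF.mul (Two.cont_ft g0_in.1).continuousOn
  have := isOpen_Fc.ae_eq_zero_of_integral_contDiff_smul_eq_zero (μ := volume)
    (hc.locallyIntegrableOn meas_Fc) fun g h1 h2 h3 => by
      obtain ⟨_, ⟨f, rfl⟩, e⟩ := exists_ft (Ap.in_univ (Ap.dc_cx ⟨h1, h2⟩)).1
      have := h f
      rw [e, setIntegral_eq_integral_of_forall_compl_eq_zero fun p hp => by
        simp [cx, image_eq_zero_of_notMem_tsupport fun k => hp (h3 k)]] at this
      rw [← this]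
      exact integral_congr_ae (.of_forall fun p => by
        simp only [cx, Complex.real_smul, Complex.conj_ofReal]
        ring)
  intro p hp
  exact (mul_eq_zero.1 (Measure.eqOn_open_of_ae_eq (μ := volume)
    ((ae_restrict_iff' meas_Fc).2 this) isOpen_Fc hc continuousOn_const hp)).resolve_right
    (g0_ne p)

/-- functions with compact support are dense -/
lemma ext_cs {α : Type*} [TopologicalSpace α] [T2Space α] {u v : Sch → α} (hu : Continuous u)
    (hv : Continuous v) (h : ∀ f : Sch, HasCompactSupport f → u f = v f) (f : Sch) : u f = v f :=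
  P352.H246D.ext_cs (hu.comp P352.toSchL.continuous) (hv.comp P352.toSchL.continuous)
    (fun F hF => h _ (P352.H246D.hcs_fl hF)) (P352.ofSch f)

lemma cont_int {H : V → ℂ} (hH : IntegrableOn H Fc) :
    Continuous fun f : Sch => ∫ p in Fc, H p * ft (ev f) p :=
  continuous_iff_continuousAt.2 fun f => by
    have hs := ((schwartz_withSeminorms ℝ V ℂ).continuous_seminorm (0, 0)).comp ftS.continuous
    refine continuousAt_of_dominated (bound := fun p => ‖H p‖ *
      (schwartzSeminormFamily ℝ V ℂ (0, 0) (ftS f) + 1))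
      (.of_forall fun g => hH.1.mul (Two.cont_ft ⟨g, rfl⟩).aestronglyMeasurable) ?_
      (hH.norm.mul_const _) (.of_forall fun p => ?_)
    · filter_upwards [hs.continuousAt.eventually (eventually_le_nhds (lt_add_one _))] with g hg
      refine .of_forall fun p => ?_
      rw [norm_mul, ← ftS_apply]
      exact mul_le_mul_of_nonneg_left (((ftS g).norm_le_seminorm ℝ p).trans hg) (norm_nonneg _)
    · simp only [← ftS_apply]
      exact (continuous_const.mul (ST.continuous_eval.comp
        (ftS.continuous.prodMk continuous_const))).continuousAt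

variable {D : Type*} [NormedAddCommGroup D] [InnerProductSpace ℂ D] {c : Ctx D} {a b : Ix}
  {X Y : ℝ → Sch → Completion D} {P P' : Polynomial R}

theorem Ov.add (h : Ov c a b X P) (h' : Ov c a b Y P') :
    Ov c a b (fun l f => X l f + Y l f) (P + P') := fun l f' f hf => by
  rw [inner_add_right, h l f' f hf, h' l f' f hf, ← integral_add (int_evl l P ⟨f', rfl⟩ ⟨f, rfl⟩)
    (int_evl l P' ⟨f', rfl⟩ ⟨f, rfl⟩)]
  simp only [map_add, add_mul]

theorem Ov.der (h : Ov c a b X P) (r : Ix) :
    Ov c a b (fun l f => X l (∂_{(bas r 1 : V)} f)) (Polynomial.C (qq r) * P) :=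
  fun l f' f hf => by
    rw [h l f' _ (hf.mono' ((subset_tsupport _).trans (SchwartzMap.tsupport_lineDerivOp_subset _ _))),
      ← Grp.pd_ev]
    refine integral_congr_ae (.of_forall fun p => ?_)
    simp only [ft_pd ⟨f, rfl⟩, map_mul, evl_C, qq, evp, MvPolynomial.eval_C, MvPolynomial.eval_X]
    push_cast
    ring

theorem Ov.uniq (h : Ov c a b X P) (h' : Ov c a b X P') : P = P' :=
  sub_eq_zero.1 (evl_zero fun l => van3 (cont_evl l _) fun f' => by
    simp only [map_sub, sub_mul]
    rw [integral_sub (int_evl l P ⟨f', rfl⟩ g0_in.1) (int_evl l P' ⟨f', rfl⟩ g0_in.1), sub_eq_zero]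
    exact (h l f' gS g0_in.2.1).symm.trans (h' l f' gS g0_in.2.1))

theorem Ov.zero : Ov c a b (fun _ _ => 0) 0 := fun l f' f _ => by simp

theorem Ov.smul (h : Ov c a b X P) (z : ℂ) : Ov c a b (fun l f => z • X l f) (z • P) :=
  fun l f' f hf => by
    rw [inner_smul_right, h l f' f hf, ← integral_const_mul, Algebra.smul_def,
      Polynomial.algebraMap_apply]
    simp only [map_mul, evl_C, evp, MvPolynomial.algebraMap_eq, MvPolynomial.eval_C, mul_assoc]

theorem Ov.sum {ι : Type*} (s : Finset ι) {Z : ι → ℝ → Sch → Completion D}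
    {q : ι → Polynomial R} (h : ∀ i ∈ s, Ov c a b (Z i) (q i)) :
    Ov c a b (fun l f => ∑ i ∈ s, Z i l f) (∑ i ∈ s, q i) := by
  classical
  induction s using Finset.induction_on with
  | empty => simpa using Ov.zero
  | insert i s hi ih =>
    simpa only [Finset.sum_insert hi] using (h i (by simp)).add (ih fun j hj => h j (by simp [hj]))

/-- the vacuum component and the functions without compact support do not matter -/
theorem Ov.congr (h : Ov c a b X P)
    (e : ∀ l (f : Sch), HasCompactSupport f → ∃ κ : ℂ, Y l f = X l f + κ • c.Om) : Ov c a b Y P :=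
  fun l f' f hf => by
    obtain ⟨κ, e⟩ := e l f hf
    rw [e, inner_add_right, h l f' f hf, inner_smul_right,
      show inner ℂ ((c.T a b (ev f') c.Q.vac : D) : Completion D) c.Om = 0 from
        inner_eq_zero_symm.1 (Two.pp2 c.hT ![a, b] f'), mul_zero, add_zero]

/-- continuous families: all test functions -/
theorem Ov.all {q : R} (h : Ov c a b X (Polynomial.C q)) {l : ℝ} (hX : Continuous (X l))
    (f' f : Sch) : inner ℂ ((c.T a b (ev f') c.Q.vac : D) : Completion D) (X l f) =
      ∫ p in Fc, evp q p * (conj (ft (ev f') p) * ft (ev f) p) := by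
  have := cont_int (test_int (test_mul (Api4.temperate_evp q (ContinuousLinearMap.id ℝ V))
    (Ap.test_bar (test_ft ⟨f', rfl⟩)))).integrableOn
  refine ext_cs (v := fun f => ∫ p in Fc, evp q p * (conj (ft (ev f') p) * ft (ev f) p))
    (continuous_const.inner hX) (this.congr fun g => ?_) (fun g hg => ?_) f
  · exact integral_congr_ae (.of_forall fun p => mul_assoc _ _ _)
  · simpa only [evl_C] using h l f' g hg

theorem ov_row (c : Ctx D) : OV c :=
  ⟨fun _ _ _ _ _ _ => Ov.add, fun _ _ _ _ r h => h.der r, fun _ _ _ _ _ => Ov.uniq⟩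

/-- the conjugation of the coefficients -/
def cj : R →+* R := MvPolynomial.map (starRingEnd ℂ)

lemma evp_cj (q : R) (p : V) : evp (cj q) p = conj (evp q p) := by
  induction q using MvPolynomial.induction_on with
  | C a => simp [evp, cj]
  | add q r h h' => simp only [evp, map_add] at h h' ⊢; rw [h, h']
  | mul_X q m h => simp only [evp, map_mul] at h ⊢; rw [h]; simp [cj]

lemma cj_X (m : Ix) : cj (MvPolynomial.X m) = MvPolynomial.X m := MvPolynomial.map_X _ _

lemma cj_mup : cj mup = mup := by simp [cj, mup]

theorem fin_row (c : Ctx D) : FIN c where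
  herm π h hL a b := by
    have e : ∀ r s a b, π r s a b = cj (π a b r s) := fun r s a b => ext_Fc fun p hp =>
      sub_eq_zero.1 (van2 (F := fun p => evp (π r s a b) p - evp (cj (π a b r s)) p)
        ((cont_evp _).sub (cont_evp _)).continuousOn (fun f' f => by
          simp only [sub_mul]
          rw [integral_sub (Poly.int_q _ ⟨f', rfl⟩ ⟨f, rfl⟩) (Poly.int_q _ ⟨f', rfl⟩ ⟨f, rfl⟩),
            ← (h r s a b).all (l := 0) (c.hT.lv ![r, s]).continuous, ← inner_conj_symm,
            (h a b r s).all (l := 0) (c.hT.lv ![a, b]).continuous, ← integral_conj, sub_eq_zero]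
          exact integral_congr_ae (.of_forall fun p => by simp [evp_cj, mul_comm])) p hp)
    refine ⟨fun r s => (hL r s).hom a b, fun r s k => ?_, fun r s k => ?_⟩
    · simpa only [map_sub, map_mul, cj_X, cj_mup, ← e] using map_dvd cj ((hL a b).dv1 r s k)
    · simpa only [map_sub, map_mul, cj_X, cj_mup, ← e] using map_dvd cj ((hL a b).dv2 r s k)
  zero hc π h _ hd r s f hf := by
    obtain ⟨π', h1, h2, -, -, -, -, h3⟩ := Pl.poly_thm hc 2 4 c.hT.lv ⟨fun μ s L a f g hs hL e =>
      ⟨0, by simpa only [Ug_apply _ hs hL, zero_smul, add_zero, Int.cast_ofNat] using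
        Two.mu_of c.hT hc.cov μ s L a f g hs hL e⟩⟩ (by decide)
    refine fin_zero hc π' h1 (fun a b μ => (h2 a b μ).1) h3 (fun a b μ => ?_) r s f _ hf
    rw [Polynomial.C_injective ((show Ov c a b _ (Polynomial.C (π' a b μ)) from fun l f' f _ => by
      simpa only [evl_C, P2.lv_apply] using h1 a b μ f' f).uniq (h (μ 0) (μ 1) a b))]
    exact hd _ _ _ _

end

end Vale.Agent.P352X.ZZ.SA
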