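import Vale.Agent.P352X.R.POLY.Pol

/-!
# P352Z: polynomial overlaps without symmetry, the algebraic half (helper40, after helper21)
-/

set_option linter.all false

namespace Vale.Agent.P352X.ZZ.Pl

open Vale.Agent.P352 Vale.Agent.P352.GF Vale.Agent.P352.BW MvPolynomial
open Vale.Agent.P352X.Two Vale.Agent.P352X.Poly AlgP PolP

noncomputable section

/-- rational functions that are longitudinal on the cone in both indices -/
def Rat {N : ℕ} (F : Ix → Ix → (Fin N → Ix) → V → ℂ) : Prop :=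
  ∃ (M : ℕ) (A : (Fin N → Ix) → Q4) (Q : Ix → Ix → (Fin N → Ix) → Q4), ∀ r s μ p, p ∈ Fc →
    (be p : ℂ) ^ M * F r s μ p = (p r : ℂ) * (p s : ℂ) * evp (A μ) p + (mu p : ℂ) * evp (Q r s μ) p

lemma dv_bp {M : ℕ} {u w : Q4} (e : mup * u = bp ^ M * w) : mup ∣ w := by
  obtain ⟨x, hx⟩ := prime_bp.pow_dvd_of_dvd_mul_left M bp_mup ⟨_, e⟩
  rw [hx, mul_left_comm] at e
  exact ⟨x, (mul_left_cancel₀ (pow_ne_zero M prime_bp.ne_zero) e).symm⟩

/-- covariant rational functions are polynomials -/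
theorem alg {N : ℕ} {d : ℤ} {F : Ix → Ix → (Fin N → Ix) → V → ℂ}
    (cov : ∀ r s μ t L p, 0 < t → IsLor L → p ∈ Fc → F r s μ (sim t L 0 p) = ((t ^ d : ℝ) : ℂ) *
      ∑ k, ∑ l, ∑ ν : Fin N → Ix, ((L k r * L l s * ∏ i, L (ν i) (μ i) : ℝ) : ℂ) * F k l ν p)
    (rat : Rat F) : ∃ π : Ix → Ix → (Fin N → Ix) → Q4,
    (∀ r s μ p, p ∈ Fc → evp (π r s μ) p = F r s μ p) ∧
    (∀ r s μ, (π r s μ).IsHomogeneous d.toNat ∧ (d < 0 → π r s μ = 0)) ∧
    (∀ r s k μ, mup ∣ π r s μ * X k - π k s μ * X r) ∧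
    (∀ r s k μ, mup ∣ π r s μ * X k - π r k μ * X s) ∧
    ∀ r s μ L p, IsLor L → evp (π r s μ) (sim 1 L 0 p) = ∑ k, ∑ l, ∑ ν : Fin N → Ix,
      ((L k r * L l s * ∏ i, L (ν i) (μ i) : ℝ) : ℂ) * evp (π k l ν) p := by
  obtain ⟨M, A, Q, pol⟩ := rat
  set P : Ix → Ix → (Fin N → Ix) → Q4 := fun r s μ => X r * X s * A μ + mup * Q r s μ with hP
  have h1 : ∀ r s μ, ∀ p ∈ Fc, evp (P r s μ) p = (be p : ℂ) ^ M * F r s μ p := fun r s μ p hp => by
    rw [pol r s μ p hp, ← evp_mup]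
    simp [hP, evp]
  have h2 : ∀ r s μ, bp ^ M ∣ P r s μ := fun r s μ => by
    refine prime_bp.pow_dvd_of_dvd_mul_left M (bp_ap M) ⟨∑ k, ∑ l, ∑ ν : Fin N → Ix,
      C ((rot k r * rot l s * ∏ i, rot (ν i) (μ i) : ℝ) : ℂ) * sub rot (P k l ν),
      ext_Fc fun p hp => ?_⟩
    have a := cov r s μ 1 rot _ one_pos rot_lor (Fc_lor rot_lor hp)
    rw [rot_rot, one_zpow, Complex.ofReal_one, one_mul] at a
    simp only [evp, map_mul, map_pow, map_sum, eval_C]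
    simp only [← evp.eq_1, evp_sub, h1 _ _ _ _ hp, h1 _ _ _ _ (Fc_lor rot_lor hp), be_rot, evp_bp, a,
      Finset.mul_sum]
    refine Finset.sum_congr rfl fun k _ => Finset.sum_congr rfl fun l _ =>
      Finset.sum_congr rfl fun ν _ => by ring
  choose π hπ using h2
  have h3 : ∀ r s μ, ∀ p ∈ Fc, evp (π r s μ) p = F r s μ p := fun r s μ p hp => by
    have := h1 r s μ p hp
    rw [hπ, evp, map_mul, map_pow, ← evp, evp_bp] at this
    exact mul_left_cancel₀ (pow_ne_zero M (Complex.ofReal_ne_zero.2 ((mem_Fc p).1 hp).1.ne')) this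
  refine ⟨π, h3, fun r s μ => hom_of fun p hp => ?_,
    fun r s k μ => dv_bp (M := M) (u := Q r s μ * X k - Q k s μ * X r) ?_,
    fun r s k μ => dv_bp (M := M) (u := Q r s μ * X k - Q r k μ * X s) ?_, fun r s μ L p hL => ?_⟩
  · have a := cov r s μ 2 GF.one p two_pos H496.isLor_one hp
    have b : sim 2 GF.one 0 p = (2 : ℝ) • p := by
      funext n
      simp [sim, GF.one, bas]
    rw [sum_one (fun k l ν => F k l ν p), b] at a
    rw [h3 _ _ _ _ ((Fc_smul two_pos).2 hp), h3 _ _ _ _ hp, a]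
  · rw [mul_sub (bp ^ M), ← mul_assoc, ← mul_assoc, ← hπ, ← hπ]
    simp only [hP]
    ring
  · rw [mul_sub (bp ^ M), ← mul_assoc, ← mul_assoc, ← hπ, ← hπ]
    simp only [hP]
    ring
  · have e : sub L (π r s μ) = ∑ k, ∑ l, ∑ ν : Fin N → Ix,
        C ((L k r * L l s * ∏ i, L (ν i) (μ i) : ℝ) : ℂ) * π k l ν := ext_Fc fun p hp => by
      rw [evp_sub, h3 _ _ _ _ (Fc_lor hL hp), cov r s μ 1 L p one_pos hL hp, one_zpow,
        Complex.ofReal_one, one_mul]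
      simp only [evp, map_mul, map_sum, eval_C]
      simp only [← evp.eq_1, h3 _ _ _ _ hp]
    rw [← evp_sub, e]
    simp only [evp, map_mul, map_sum, eval_C]

theorem expo {N : ℕ} {d : ℤ} {A : Fin 2 → Fin 4} {C : Fin N → Fin 4} (hd : Even (d - N))
    (h2 : Even (nU A + nU C)) (h3 : 1 / 2 < (d : ℝ) / 2 + ∑ j, yw (C j)) :
    ∃ n : ℕ, (d : ℝ) / 2 + ∑ j, yw (A j) + ∑ j, yw (C j) = n ∧ (n = 0 → A 0 = 0 ∧ A 1 = 0) := by
  simp only [zw_eq, ← Finset.sum_div, ← Int.cast_sum] at h3 ⊢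
  have h4 : 1 < d + ∑ j, zw (C j) := by
    have : (1 : ℝ) < d + (∑ j, zw (C j) : ℤ) := by linarith
    exact_mod_cast this
  have h5 : ∀ a, -1 ≤ zw a := by decide
  have h6 : ∀ a, zw a < 0 → a = 0 := by decide
  obtain ⟨x1, e1⟩ := hd
  obtain ⟨x2, e2⟩ := PolP.par A
  obtain ⟨x3, e3⟩ := PolP.par C
  obtain ⟨x4, e4⟩ := h2
  have a0 := h5 (A 0)
  have a1 := h5 (A 1)
  have e5 := Fin.sum_univ_two fun j => zw (A j)
  obtain ⟨n, hn⟩ : ∃ n : ℕ, d + ∑ j, zw (A j) + ∑ j, zw (C j) = 2 * n :=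
    ⟨((d + ∑ j, zw (A j) + ∑ j, zw (C j)) / 2).toNat, by omega⟩
  refine ⟨n, ?_, fun h => ⟨h6 _ (by omega), h6 _ (by omega)⟩⟩
  have : (d : ℝ) + (∑ j, zw (A j) : ℤ) + (∑ j, zw (C j) : ℤ) = 2 * n := by exact_mod_cast hn
  linarith

/-- the densities are rational -/
theorem rat {N : ℕ} {d : ℤ} {κ : (Fin 2 → Fin 4) → (Fin N → Fin 4) → ℂ} (hd : Even (d - N))
    (hκ : ∀ A C, κ A C ≠ 0 → Even (nU A + nU C) ∧ 1 / 2 < (d : ℝ) / 2 + ∑ j, yw (C j)) :
    Rat fun r s => FF (d / 2) κ ![r, s] := by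
  choose dp hp using ex_du
  have key : ∀ (A : Fin 2 → Fin 4) (B : Fin N → Fin 4), ∃ (a : (Fin N → Ix) → Q4)
      (q : Ix → Ix → (Fin N → Ix) → Q4), ∀ r s μ, ∀ p ∈ Fc, (be p : ℂ) ^ (2 * 2 + 2 * N) * (κ A B *
      ((be p ^ (∑ j, (xw (A j) - yw (A j)) + ∑ j, (xw (B j) - yw (B j))) *
        mu p ^ ((d : ℝ) / 2 + ∑ j, yw (A j) + ∑ j, yw (B j)) *
        (cm ![r, s] A p * cm μ B p) : ℝ) : ℂ)) =
      (p r : ℂ) * (p s : ℂ) * evp (a μ) p + (mu p : ℂ) * evp (q r s μ) p := fun A B => by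
    by_cases h0 : κ A B = 0
    · exact ⟨0, 0, fun r s μ p _ => by simp [h0, evp]⟩
    obtain ⟨a2, a3⟩ := hκ A B h0
    obtain ⟨n, hn, hn'⟩ := expo hd a2 a3
    obtain ⟨w, hw⟩ : ∃ w : (Fin N → Ix) → Q4, ∀ r s μ, ∀ p ∈ Fc,
        (be p : ℂ) ^ (2 * 2 + 2 * N) * (κ A B *
        ((be p ^ (∑ j, (xw (A j) - yw (A j)) + ∑ j, (xw (B j) - yw (B j))) *
          mu p ^ ((d : ℝ) / 2 + ∑ j, yw (A j) + ∑ j, yw (B j)) *
          (cm ![r, s] A p * cm μ B p) : ℝ) : ℂ)) =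
        (mu p : ℂ) ^ n * (du (A 0) p r : ℝ) * (du (A 1) p s : ℝ) * evp (w μ) p := by
      refine ⟨fun μ => C (κ A B) * bp ^ (∑ j, nw (A j) + ∑ j, nw (B j)) *
        ∏ j, dp (B j) (μ j), fun r s μ p h => ?_⟩
      have e1 := congrArg Complex.ofReal (cm_eq ![r, s] A h)
      have e2 := congrArg Complex.ofReal (cm_eq μ B h)
      simp only [hn, nw_eq, ← Nat.cast_sum, ← Nat.cast_add, Real.rpow_natCast, evp, map_mul,
        map_pow, map_prod, eval_C]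
      simp only [← evp.eq_1, hp, evp_bp]
      simp only [Fin.prod_univ_two, Matrix.cons_val_zero, Matrix.cons_val_one] at e1
      push_cast at e1 e2 ⊢
      rw [← e2, pow_add, pow_mul]
      linear_combination (κ A B * be p ^ (∑ j, nw (A j) + ∑ j, nw (B j)) * mu p ^ n *
        ((be p : ℂ) ^ 2) ^ N * cm μ B p) * e1
    rcases n with _ | m
    · refine ⟨fun μ => bp * bp * w μ, fun r s μ => (mup * C (va r * va s : ℂ) -
        bp * (X r * C (va s : ℂ) + X s * C (va r : ℂ))) * w μ, fun r s μ p h => ?_⟩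
      rw [hw r s μ p h, (hn' rfl).1, (hn' rfl).2]
      simp only [evp, map_mul, map_sub, map_add, eval_C, eval_X]
      simp only [← evp.eq_1, evp_bp, evp_mup]
      simp [du]
      ring
    · refine ⟨0, fun r s μ => mup ^ m * dp (A 0) r * dp (A 1) s * w μ, fun r s μ p h => ?_⟩
      rw [hw r s μ p h]
      simp only [evp, map_mul, map_pow, Pi.zero_apply, map_zero]
      simp only [← evp.eq_1, hp, evp_mup]
      ring
  choose a q h using key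
  refine ⟨2 * 2 + 2 * N, fun μ => ∑ A, ∑ B, a A B μ, fun r s μ => ∑ A, ∑ B, q A B r s μ,
    fun r s μ p hp => ?_⟩
  simp only [FF, Finset.mul_sum, h _ _ r s μ p hp, evp, map_sum, Finset.sum_add_distrib]

lemma FF_add {k l : ℕ} (e : ℝ) (M : ℕ) (κ : (Fin k → Fin 4) → (Fin l → Fin 4) → ℂ) (J : Fin k → Ix)
    (μ : Fin l → Ix) {p : V} (hp : p ∈ Fc) :
    FF (e + M) κ J μ p = (mu p : ℂ) ^ M * FF e κ J μ p := by
  simp only [FF, Finset.mul_sum]
  refine Finset.sum_congr rfl fun A _ => Finset.sum_congr rfl fun C _ => ?_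
  rw [show e + M + ∑ j, yw (A j) + ∑ j, yw (C j) = e + ∑ j, yw (A j) + ∑ j, yw (C j) + M by ring,
    Real.rpow_add ((mem_Fc p).1 hp).2, Real.rpow_natCast]
  push_cast
  ring

end

end Vale.Agent.P352X.ZZ.Pl
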