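import Vale.Agent.P352Z.SA.Spec
import Vale.Agent.P352Z.R.STRUCT

/-!
# P352Z, step A: row STR (helper22)
-/

set_option linter.all false

noncomputable section

open Filter Topology Set Metric
open scoped SchwartzMap ContDiff LineDeriv

namespace Vale.Agent.P352X.ZZ.SA

open Vale.Agent.P352 Vale.Agent.P352.GF Vale.Agent.P352.BW Api4
open UniformSpace (Completion)
open Vale.Agent.P352X.Str

namespace StL

section pl

variable {E : Type*} [AddCommGroup E] [Module ℝ E] {N : ℕ} {x y : ℝ → E}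

/-- polynomials that agree at the nodes agree everywhere -/
theorem pl_ext (h : PL N x) (h' : PL N y) (e : ∀ i : ℕ, i ≤ N → x i = y i) (l : ℝ) :
    x l = y l := by
  rw [h.eq l, h'.eq l]
  refine Finset.sum_congr rfl fun j _ => congrArg _ (Finset.sum_congr rfl fun i hi => ?_)
  rw [e i (Nat.lt_succ_iff.1 (Finset.mem_range.1 hi))]

end pl

variable {D : Type*} [NormedAddCommGroup D] [InnerProductSpace ℂ D] {c : Ctx D}

/-- the projection orthogonal to the vacuum -/
def pv (c : Ctx D) : Completion D →L[ℂ] Completion D := 1 - (innerSL ℂ c.Om).smulRight c.Om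

lemma pv_apply (z : Completion D) : pv c z = z - inner ℂ c.Om z • c.Om := rfl

lemma om_om : inner ℂ c.Om c.Om = 1 := by
  rw [inner_self_eq_norm_sq_to_K, c.E.norm_xi]
  simp

lemma pv_perp (z : Completion D) : inner ℂ c.Om (pv c z) = 0 := by
  rw [pv_apply, inner_sub_right, inner_smul_right, om_om, mul_one, sub_self]

lemma pv_om : pv c c.Om = 0 := by rw [pv_apply, om_om, one_smul, sub_self]

lemma pv_ug (g : GRP c) (s : ℝ) (L : Ix → V) (a : V) (z : Completion D) :
    pv c (Ug c.Q s L a z) = Ug c.Q s L a (pv c z) := by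
  have h := (Unitary.mem_iff.1 (g.uni s L a)).1
  have : inner ℂ c.Om (Ug c.Q s L a z) = inner ℂ c.Om z := by
    conv_lhs => rw [← g.vac s L a]
    rw [← ContinuousLinearMap.adjoint_inner_right, ← ContinuousLinearMap.star_eq_adjoint,
      ← ContinuousLinearMap.mul_apply, h, ContinuousLinearMap.one_apply]
  rw [pv_apply, pv_apply, map_sub, map_smul, g.vac, this]

variable {Q : Theory D} {T : ℝ → Ix → Ix → Fld D} {K k : ℕ}
  {w : ℝ → I2 → I2 → S2 →L[ℂ] Completion D} {χ : V → ℂ} {s : ℝ} {L : Ix → V}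

/-- the divergence vanishes off the diagonal -/
theorem off (h : TPL Q T K w) (l : ℝ) (hT : ∀ m n, Q.fld (T l m n))
    (h0 : ∀ n f v, GF.IsTest f → ∑ m, T l m n (pd m f) v = 0) (n : Ix) (J : I2) :
    Off (dvL (w l) n J) := by
  refine fun G hG => ST.ker2_local _ G fun q hq => ?_
  obtain ⟨δ, d0, d⟩ := late_near (x := q.1) (y := q.2) fun a => hG q.1 (by
    rwa [show (q.1, q.1) = q from Prod.ext rfl a])
  refine ⟨δ, d0, fun f g _ _ s1 s2 => ?_⟩
  have s3 := fun m : Ix => (SchwartzMap.tsupport_lineDerivOp_subset (bas m 1 : V) f).trans s1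
  have c1 : ∀ v : D, ∑ m, T l m n (ev (∂_{(bas m 1 : V)} f)) v = 0 := fun v => by
    simpa only [Grp.pd_ev] using h0 n (ev f) v ⟨f, rfl⟩
  rw [dvL_apply, dv1]
  rcases d with d | d
  · rw [Finset.sum_congr rfl fun m _ => h.fac l (m, n) J _ g _ (d_tens m f g)
      fun a ha b hb => d a (s3 m ha) b (s2 hb), ← coe_sum, c1, Completion.coe_zero]
  · rw [Finset.sum_congr rfl fun m _ => (h.swap l (m, n) J _ (ST.tens g (∂_{(bas m 1 : V)} f))
      fun x y => (mul_comm _ _).trans (d_tens m f g y x).symm).trans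
        (h.fac l J (m, n) g _ _ (fun _ _ => rfl) fun a ha b hb => d a (s2 ha) b (s3 m hb)),
      ← coe_sum, ← fld_lin (hT _ _) ⟨g, rfl⟩, c1, ← Finset.sum_empty (f := fun _ : Ix => 0),
      fld_lin (hT _ _) ⟨g, rfl⟩, Finset.sum_empty, Completion.coe_zero]

/-- covariance of the divergence -/
theorem dv_cov (h : TPL Q T K w) (hs : 0 < s) (hL : IsLor L) (a : V) (l : ℝ) (n : Ix) (J : I2)
    (F : S2) : ∃ κ : ℂ, dvL (w l) n J F = ∑ k, ∑ M, (((s⁻¹ * L k n : ℝ) : ℂ) * L2 L M J) •
      Ug Q s L a (dvL (w (l + Real.log s)) k M (sim2 hs hL a F)) + κ • om Q := by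
  choose κ hκ using fun m => h.cov l s L a (m, n) J (∂_{((bas m 1, 0) : V × V)} F) _ hs hL
    (sim2_apply hs hL a _)
  refine ⟨∑ m, κ m, ?_⟩
  simp only [dvL_apply, dv1, hκ, Finset.sum_add_distrib, Finset.sum_smul, d_sim2, map_sum, map_smul,
    Finset.smul_sum, smul_smul, ← Ug_apply Q hs hL, Fintype.sum_prod_type (α₁ := Ix) (f := fun K =>
      ∑ M, (L2 L K _ * L2 L M J) • _), add_left_inj]
  refine (Finset.sum_congr rfl fun m _ => Finset.sum_comm).trans (Finset.sum_comm.trans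
    (Finset.sum_congr rfl fun k _ => ((Finset.sum_congr rfl fun m _ => Finset.sum_comm).trans
      Finset.sum_comm).trans (Finset.sum_congr rfl fun M _ => Finset.sum_comm.trans
        (Finset.sum_congr rfl fun j _ => Finset.sum_congr rfl fun m _ => ?_))))
  congr 1
  have : (s : ℂ) ≠ 0 := by exact_mod_cast hs.ne'
  simp only [L2]
  push_cast
  field_simp

/-- the contact terms, orthogonal to the vacuum -/
def cp (c : Ctx D) (w : ℝ → I2 → I2 → S2 →L[ℂ] Completion D) (χ : V → ℂ) (k : ℕ)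
    (μ : Fin (k + 3) → Ix) (l : ℝ) : Sch →L[ℂ] Completion D := pv c ∘L Str.ct (w l) χ k μ

lemma cp_ix3 (n : Ix) (J : I2) (γ : Fin k → Ix) (l : ℝ) (f : Sch) : cp c w χ k (ix3 n J γ) l f =
    pv c (dvL (w l) n J (ten2 (sch fun u => mon γ u * χ u) f)) := rfl

lemma dv_pl (h : TPL Q T K w) (n : Ix) (J : I2) (G : S2) : PL K fun l => dvL (w l) n J G := by
  simp only [dvL_apply, dv1]
  exact PL.sum _ fun m _ => (h.pl _ _).app _

lemma cp_pl (h : TPL Q T K w) (μ : Fin (k + 3) → Ix) : PL K (cp c w χ k μ) :=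
  PL.clm fun f => (dv_pl h _ _ _).map ((pv c).restrictScalars ℝ).toLinearMap

theorem cp_cov (g : GRP c) (h : TPL c.Q T K w) (of : ∀ l n J, Off (dvL (w l) n J)) (hχ : Dc χ)
    (h1 : ∀ᶠ u in 𝓝 (0 : V), χ u = 1) (l : ℝ) (μ : Fin (k + 3) → Ix) {a : V} {f f' : Sch}
    (hs : 0 < s) (hL : IsLor L) (hg : ∀ x, f' x = f (sim s L a x)) : cp c w χ k μ l f =
      ∑ ν : Fin (k + 3) → Ix, ((s ^ (4 - ((5 - k : ℤ) : ℝ)) * ∏ i, L (ν i) (μ i) : ℝ) : ℂ) •
        Ug c.Q s L a (cp c w χ k ν (l + Real.log s) f') := by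
  obtain ⟨n, J, γ, rfl⟩ : ∃ n J γ, μ = ix3 n J γ :=
    ⟨μ 0, (μ 1, μ 2), fun i => μ i.succ.succ.succ, funext fun i =>
      Fin.cases rfl (Fin.cases rfl (Fin.cases rfl fun _ => rfl)) i⟩
  have dc := fun γ : Fin k → Ix => dc_mul_left (smooth_mon γ) hχ
  obtain ⟨κ, hκ⟩ := dv_cov h hs hL a l n J (ten2 (sch fun u => mon γ u * χ u) f)
  have key : ∀ j M, dvL (w (l + Real.log s)) j M
      (sim2 hs hL a (ten2 (sch fun u => mon γ u * χ u) f)) =
      ∑ ν, ((s ^ k * ∏ i, L (ν i) (γ i) : ℝ) : ℂ) •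
        dvL (w (l + Real.log s)) j M (ten2 (sch fun u => mon ν u * χ u) f') := fun j M => by
    simp only [← map_smul, ← map_sum]
    refine (of _ j M).congr fun x => ?_
    filter_upwards [near h1 continuous_id rfl x, near h1 (sl hs hL).continuous (map_zero _) x]
      with ⟨y, z⟩ a1 a2
    have : sim s L a y - sim s L a z = sim s L 0 (y - z) := by
      rw [← sl_apply hs hL, map_sub, sl_apply, sl_apply, HM.sim_at s L a, HM.sim_at s L a z]
      abel
    rw [sl_apply] at a2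
    simp only [map_smul, sim2_apply, SchwartzMap.sum_apply, SchwartzMap.smul_apply, ten2_apply,
      sch_apply (dc _), this, a2, show χ (y - z) = 1 from a1, hg, mon_sim, mul_one,
      Finset.sum_mul, smul_eq_mul, mul_assoc]
  rw [cp_ix3, hκ, map_add, map_smul, show pv c (om c.Q) = 0 from pv_om, smul_zero, add_zero]
  simp only [key, map_sum, map_smul, pv_ug g, Finset.smul_sum, smul_smul, ← cp_ix3]
  rw [sum_cons]
  refine Finset.sum_congr rfl fun j _ => ?_
  rw [Fintype.sum_prod_type, sum_cons]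
  refine Finset.sum_congr rfl fun m1 _ => ?_
  rw [sum_cons]
  refine Finset.sum_congr rfl fun m2 _ => Finset.sum_congr rfl fun ν _ => ?_
  congr 1
  rw [show (4 - ((5 - k : ℤ) : ℝ)) = k - 1 by push_cast; ring, Real.rpow_sub_one hs.ne',
    Real.rpow_natCast]
  simp only [L2, ix3, Fin.prod_univ_succ, Matrix.cons_val_zero, Matrix.cons_val_succ]
  push_cast
  ring

end StL

open StL in
/-- **row STR** -/
theorem str_row {D : Type*} [NormedAddCommGroup D] [InnerProductSpace ℂ D] (c : Ctx D)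
    (g : GRP c) : STR c := fun k Tj K w hT h => by
  let b : ContDiffBump (0 : V) := ⟨1, 2, one_pos, one_lt_two⟩
  have hχ : Dc (cx b) := dc_cx ⟨b.contDiff, b.hasCompactSupport⟩
  have h1 : ∀ᶠ u in 𝓝 0, cx b u = 1 := b.eventuallyEq_one.mono fun u hu => by
    rw [cx, hu]
    rfl
  have of := fun l => off h l (fun m n => c.Q.bose_fld _ ((hT.p2l l).bose m n)) fun n f v hf => by
    simp only [fam2, ← Two.ex0_sum', hT.conserved _ n f v hf, Two.ex0_nil]
  choose C N hC hb using fun p : Fin (K + 1) × Ix × I2 =>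
    ST.clm_sn_c (dvL (w (p.1 : ℕ)) p.2.1 p.2.2)
  choose O top cb eq using fun k μ => (cp_pl (c := c) (χ := cx b) (k := k) h μ).to_ex0
  have ev : ∀ k l (ν : Fin (k + 3) → Ix) (f : Sch),
      (ex0 K l fun j => O k ν j f) = cp c w (cx b) k ν l f := fun k l ν f => by
    rw [eq]
    simp only [ex0, ContinuousLinearMap.sum_apply, ContinuousLinearMap.smul_apply]
  have top' : ∀ k j, K < j → (fun ν : Fin (k + 3) → Ix => O k ν j) = 0 :=
    fun k j hj => funext fun ν => top k ν j hj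
  refine ⟨cx b, max 2 (Finset.univ.sup N), fun k j ν => O k ν j, le_max_left _ _, hχ, h1, of,
    fun k => ?_, top',
    fun k n r s γ l f => ⟨inner ℂ c.Om (ct w (cx b) n r s γ l f), ?_⟩, fun l n r s G hG => ?_⟩
  · refine .of_fam (fun j ν f => ?_) (top' k) fun l μ s L a f f' hs hL e => ?_
    · obtain ⟨q, hq⟩ := cb k ν j
      simp only [hq, ContinuousLinearMap.sum_apply, ContinuousLinearMap.smul_apply,
        inner_sum, ← Complex.coe_smul, inner_smul_right]
      exact Finset.sum_eq_zero fun i _ => mul_eq_zero_of_right _ (pv_perp _)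
    · simp only [ev]
      exact cp_cov g h of hχ h1 l μ hs hL e
  · rw [ev, cp_ix3, dvL_apply, pv_apply]
    exact (sub_add_cancel _ _).symm
  · simp only [ct, ← dvL_apply]
    refine pl_ext (N := K) (x := fun l => dvL (w l) n (r, s) G) (y := fun l => ∑ k ∈ Finset.range
      (max 2 (Finset.univ.sup N) + 1), ∑ γ : Fin k → Ix, (k.factorial : ℂ)⁻¹ • dvL (w l) n (r, s)
        (ten2 (sch fun u => mon γ u * cx b u) (dg γ G))) (dv_pl h _ _ _)
      (PL.sum _ fun k _ => PL.sum _ fun γ _ => ?_) (fun i hi => ?_) l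
    · exact (dv_pl h _ _ _).map ((LinearMap.lsmul ℂ _ _).restrictScalars ℝ)
    · exact (of i n (r, s)).expand (hC (⟨i, Nat.lt_succ_of_le hi⟩, n, r, s)) (fun f =>
        (hb (⟨i, Nat.lt_succ_of_le hi⟩, n, r, s) f).trans (mul_le_mul_of_nonneg_left
          (ST.sn_mono (le_max_of_le_right (Finset.le_sup (f := N) (Finset.mem_univ _))) f)
            (hC _))) hχ h1 hG

end Vale.Agent.P352X.ZZ.SA
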