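import Vale.Agent.P352Z.SA.Defs

/-!
# P352Z, step A: the rows (helper27)
-/

set_option linter.all false

open MeasureTheory Filter Topology
open scoped SchwartzMap ComplexConjugate ContDiff

namespace Vale.Agent.P352X.ZZ.SA

open Vale.Agent.P352 Vale.Agent.P352.GF Vale.Agent.P352.BW Vale.Agent.P352.H246
open Vale.Agent.P352.H496 Vale.Agent.P352.H755 Vale.Agent.P352.H15
open UniformSpace (Completion)
open Complex (I)

noncomputable section

variable {D : Type*} [NormedAddCommGroup D] [InnerProductSpace ℂ D]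

/-- row OV: the calculus of symbols -/
structure OV (c : Ctx D) : Prop where
  add : ∀ a b X Y P P', Ov c a b X P → Ov c a b Y P' →
    Ov c a b (fun l f => X l f + Y l f) (P + P')
  der : ∀ a b X P r, Ov c a b X P → Ov c a b
    (fun l f => X l (LineDeriv.lineDerivOp (bas r 1 : V) f)) (Polynomial.C (qq r) * P)
  uniq : ∀ a b X P P', Ov c a b X P → Ov c a b X P' → P = P'

/-- row POL: the overlaps with logarithmic multiplets have symbols -/
def POL (c : Ctx D) : Prop := CT c.Q c.T → ∀ (n N : ℕ) (d : ℤ)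
  (O : ℕ → (Fin N → Ix) → Sch →L[ℂ] Completion D), Two.LMu c n d O → (∀ j, n < j → O j = 0) →
  Even (d - N) → ∃ P : ℕ → (Fin N → Ix) → Ix → Ix → Polynomial R,
    (∀ i μ a b, Ov c a b (fun l f => ex0 n l fun j => O (i + j) μ f) (P i μ a b)) ∧
    (∀ i μ j, Lg2 d.toNat fun a b => (P i μ a b).coeff j) ∧
    (d ≤ 2 → ∀ i μ a b, P i μ a b = 0) ∧
    ∀ i j μ a b, (j.factorial : ℂ) • (P i μ a b).coeff j = (P (i + j) μ a b).coeff 0

/-- the contact terms of the divergence of `w` -/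
structure Stc (c : Ctx D) (K : ℕ) (w : ℝ → I2 → I2 → S2 →L[ℂ] Completion D) (χ : V → ℂ)
    (k0 : ℕ) (O : (k : ℕ) → ℕ → (Fin (k + 3) → Ix) → Sch →L[ℂ] Completion D) : Prop where
  two : 2 ≤ k0
  dc : Dc χ
  one : ∀ᶠ u in 𝓝 (0 : V), χ u = 1
  off : ∀ l n J, Str.Off (Str.dvL (w l) n J)
  lmu : ∀ k : ℕ, Two.LMu c K ((5 - k : ℤ) : ℝ) (O k)
  top : ∀ k j, K < j → O k j = 0
  eq : ∀ k n r s (γ : Fin k → Ix) l f, ∃ κ : ℂ,
    ct w χ n r s γ l f = ex0 K l (fun j => O k j (ix3 n (r, s) γ) f) + κ • c.Om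
  exp : ∀ l n r s (G : S2), HasCompactSupport G → dv1 (w l) n (r, s) G =
    ∑ k ∈ Finset.range (k0 + 1), ∑ γ : Fin k → Ix,
      (k.factorial : ℂ)⁻¹ • ct w χ n r s γ l (dg γ G)

/-- row STR -/
def STR (c : Ctx D) : Prop := ∀ k Tj K w, LF c.Q k Tj → TPL c.Q (fam2 k Tj) K w →
  ∃ χ k0 O, Stc c K w χ k0 O

/-- row CC: the two divergences commute -/
def CC (c : Ctx D) : Prop := ∀ (T : ℝ → Ix → Ix → Fld D) K w χ k0 O a b
  (o : (k : ℕ) → Ix → Ix → Ix → (Fin k → Ix) → Polynomial R), TPL c.Q T K w →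
  Stc c K w χ k0 O → (∀ k n r s γ, Ov c a b (ct w χ n r s γ) (o k n r s γ)) →
  (∀ k n r s γ, 3 ≤ k → o k n r s γ = 0) → ∀ (h : V) n s,
    ∑ r, (Polynomial.C (qq r) - algebraMap ℂ _ (h r)) * lam (o 0 n r s ![])
      (fun γ => o 1 n r s ![γ]) (fun γ δ => o 2 n r s ![γ, δ]) (fun γ => algebraMap ℂ _ (h γ)) =
    ∑ m, algebraMap ℂ _ (h m) * lam (o 0 s m n ![]) (fun γ => o 1 s m n ![γ])
      (fun γ δ => o 2 s m n ![γ, δ]) fun γ => Polynomial.C (qq γ) - algebraMap ℂ _ (h γ)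

/-- row CHG: the charges `P` and `D` fix two contact terms -/
def CHG (c : Ctx D) : Prop := ∀ k Tj K w χ k0 O, LF c.Q k Tj → TPL c.Q (fam2 k Tj) K w →
  Stc c K w χ k0 O → ∀ r s l (f : Sch), HasCompactSupport f →
    (∀ n, (eta n : ℂ) • ct w χ n r s ![] l f = -I • ((fam2 k Tj l r s
      (ev (LineDeriv.lineDerivOp (bas n 1 : V) f)) c.Q.vac : D) : Completion D)) ∧
    ∑ n, (eta n : ℂ) • ct w χ n r s ![n] l f =
      -I • (((fam2 k (fun j => Tj (j + 1)) l r s (ev f) c.Q.vac : D) : Completion D) -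
        (4 : ℂ) • ((fam2 k Tj l r s (ev f) c.Q.vac : D) : Completion D))

/-- row FIN: the last step -/
structure FIN (c : Ctx D) : Prop where
  herm : ∀ π : Ix → Ix → Ix → Ix → R, (∀ r s a b, Ov c a b
    (fun _ f => ((c.T r s (ev f) c.Q.vac : D) : Completion D)) (Polynomial.C (π r s a b))) →
    (∀ r s, Lg2 4 (π r s)) → ∀ a b, Lg2 4 fun r s => π r s a b
  zero : CT c.Q c.T → ∀ π : Ix → Ix → Ix → Ix → R, (∀ r s a b, Ov c a b
    (fun _ f => ((c.T r s (ev f) c.Q.vac : D) : Completion D)) (Polynomial.C (π r s a b))) →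
    (∀ r s, Lg2 4 (π r s)) → (∀ r s a b, mup ∣ π r s a b) →
    ∀ r s f, IsTest f → c.T r s f c.Q.vac = 0

/-- row TPD: time ordered products of logarithmic families exist -/
def TPDL (c : Ctx D) : Prop := ∀ k Tj, LF c.Q k Tj → ∃ K w, TPL c.Q (fam2 k Tj) K w

/-- **Step A** -/
def MAIN (c : Ctx D) : Prop := ∀ k Tj, LF c.Q k Tj →
  ∀ j m n f v, 1 ≤ j → IsTest f → Tj j m n f v = 0

end

end Vale.Agent.P352X.ZZ.SA
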