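import Vale.Agent.P352Z.SA.Br
import Vale.Agent.P352Z.SA.STR
import Vale.Agent.P352Z.R.GRP

/-!
# P352Z, step A: the result (helper27)
-/

set_option linter.all false

namespace Vale.Agent.P352X.ZZ.SA

open Vale.Agent.P352 Vale.Agent.P352.GF

/-- **Step A.** -/
theorem sa_thm {D : Type*} [NormedAddCommGroup D] [InnerProductSpace ℂ D] (c : Ctx D)
    (tpl : TPD.TPL c) {k : ℕ} {Sj : ℕ → Ix → Ix → Fld D} {Vj : ℕ → Ix → Fld D}
    {A : (V → V) → D → D} (h : S0.Out c.Q A k Sj Vj) (j : ℕ) (m n : Ix) (f : Fn) (v : D)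
    (hj : 1 ≤ j) (hf : IsTest f) : S0.Tj Sj Vj j m n f v = 0 :=
  sa_of c (fun _ _ => str_row _ (grp_row _)) tpl h j m n f v hj hf

end Vale.Agent.P352X.ZZ.SA
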